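import Vale.Agent.P221X.Meas.KO

/-!
# P221, measure rings: `K / O` is an injective cogenerator
-/

set_option linter.all false

noncomputable section

namespace Vale.Agent.P221X.KO

open PowerSeries KK

variable {F : Type} [Field F]

theorem divisible {f : F⟦X⟧} (hf : f ≠ 0) (x : KO F) : ∃ y, f • y = x := by
  obtain ⟨z, rfl⟩ := mk_surj x
  have h : algebraMap F⟦X⟧ (KK F) f ≠ 0 := by simpa using hf
  exact ⟨mk ((algebraMap F⟦X⟧ (KK F) f)⁻¹ * z), by rw [smul_mk, mul_inv_cancel_left₀ h]⟩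

theorem baer : Module.Baer F⟦X⟧ (KO F) := fun I g => by
  obtain ⟨f, rfl⟩ := (IsPrincipalIdealRing.principal I).principal
  rcases eq_or_ne f 0 with rfl | hf
  · refine ⟨0, fun x hx => ?_⟩
    obtain rfl : x = 0 := by simpa using hx
    exact (map_zero g).symm
  obtain ⟨y, hy⟩ := divisible hf (g ⟨f, Submodule.mem_span_singleton_self f⟩)
  refine ⟨LinearMap.toSpanSingleton _ _ y, fun x hx => ?_⟩
  obtain ⟨a, rfl⟩ := Submodule.mem_span_singleton.1 hx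
  rw [LinearMap.toSpanSingleton_apply, smul_assoc, hy, ← map_smul]
  rfl

instance : Module.Injective F⟦X⟧ (KO F) := baer.injective

variable {V W U : Type*} [AddCommGroup U] [Module F⟦X⟧ U] [AddCommGroup V] [Module F⟦X⟧ V] [AddCommGroup W] [Module F⟦X⟧ W]

theorem extend (a : V →ₗ[F⟦X⟧] W) (ha : Function.Injective a) (φ : V →ₗ[F⟦X⟧] KO F) :
    ∃ ψ : W →ₗ[F⟦X⟧] KO F, ψ ∘ₗ a = φ := baer.extension_property a ha φ

/-- a functional which vanishes on the kernel factors -/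
theorem factor (a : V →ₗ[F⟦X⟧] W) (φ : V →ₗ[F⟦X⟧] KO F) (h : ∀ x, a x = 0 → φ x = 0) :
    ∃ ψ : W →ₗ[F⟦X⟧] KO F, ψ ∘ₗ a = φ := by
  obtain ⟨ψ, e⟩ := baer.extension_property ((LinearMap.ker a).liftQ a le_rfl)
    (LinearMap.ker_eq_bot.1 (Submodule.ker_liftQ_eq_bot _ _ _ le_rfl))
    ((LinearMap.ker a).liftQ φ h)
  exact ⟨ψ, LinearMap.ext fun x => DFunLike.congr_fun e (Submodule.Quotient.mk x)⟩

theorem mk_inv_ne : mk (uz (-1) : KK F) ≠ 0 := fun h => by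
  simpa [cf_uz] using mk_eq_zero.1 h (-1) (by omega)

/-- `K / O` is a cogenerator -/
theorem exists_ne {x : V} (hx : x ≠ 0) : ∃ φ : V →ₗ[F⟦X⟧] KO F, φ x ≠ 0 := by
  obtain ⟨ψ, e⟩ := factor (LinearMap.toSpanSingleton F⟦X⟧ V x)
    (LinearMap.toSpanSingleton _ _ (mk (uz (-1) : KK F))) fun f h => by
      have h1 : (X : F⟦X⟧) ∣ f := X_dvd_iff.2 (by_contra fun k => hx
        ((isUnit_iff_constantCoeff.2 (Ne.isUnit k)).smul_eq_zero.1 h))
      obtain ⟨g, rfl⟩ := h1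
      rw [LinearMap.toSpanSingleton_apply, mul_comm, mul_smul, ← pow_one X,
        (X_pow_smul_eq_zero (n := 1) (z := uz (-1))).2 (uz_mem_ge _), smul_zero]
  exact ⟨ψ, fun h => mk_inv_ne (by simpa [h] using (DFunLike.congr_fun e 1).symm)⟩

theorem eq_zero_of_dual {x : V} (h : ∀ φ : V →ₗ[F⟦X⟧] KO F, φ x = 0) : x = 0 :=
  by_contra fun hx => (exists_ne (F := F) hx).elim fun φ e => e (h φ)

/-- an element which is killed by the functionals vanishing on the image is in the image -/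
theorem mem_range (a : V →ₗ[F⟦X⟧] W) {y : W}
    (h : ∀ ψ : W →ₗ[F⟦X⟧] KO F, ψ ∘ₗ a = 0 → ψ y = 0) : ∃ x, a x = y :=
  (Submodule.Quotient.mk_eq_zero (LinearMap.range a)).1 (eq_zero_of_dual (F := F) fun φ =>
    h (φ ∘ₗ (LinearMap.range a).mkQ) (LinearMap.ext fun x => by
      simp [(Submodule.Quotient.mk_eq_zero (LinearMap.range a)).2 ⟨x, rfl⟩]))

theorem inj_of_dual (a : V →ₗ[F⟦X⟧] W)
    (h : Function.Surjective fun ψ : W →ₗ[F⟦X⟧] KO F => ψ ∘ₗ a) : Function.Injective a :=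
  (injective_iff_map_eq_zero a).2 fun x hx => eq_zero_of_dual (F := F) fun φ => by
    obtain ⟨ψ, rfl⟩ := h φ
    simp [hx]

theorem surj_of_dual (a : V →ₗ[F⟦X⟧] W)
    (h : Function.Injective fun ψ : W →ₗ[F⟦X⟧] KO F => ψ ∘ₗ a) : Function.Surjective a :=
  fun y => mem_range a fun ψ e => by rw [h (a₂ := 0) e]; rfl

theorem bij_iff_dual (a : V →ₗ[F⟦X⟧] W) : Function.Bijective a ↔
    Function.Bijective fun ψ : W →ₗ[F⟦X⟧] KO F => ψ ∘ₗ a :=
  ⟨fun h => ⟨fun _ _ e => (LinearMap.cancel_right h.2).1 e, extend a h.1⟩,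
    fun h => ⟨inj_of_dual a h.2, surj_of_dual a h.1⟩⟩

/-- duality preserves exact sequences -/
theorem exact_dual (a : U →ₗ[F⟦X⟧] V) (b : V →ₗ[F⟦X⟧] W) (h : Function.Exact a b)
    (φ : V →ₗ[F⟦X⟧] KO F) : φ ∘ₗ a = 0 ↔ ∃ ψ : W →ₗ[F⟦X⟧] KO F, ψ ∘ₗ b = φ :=
  ⟨fun e => factor b φ fun x hx => by
    obtain ⟨y, rfl⟩ := (h x).1 hx
    exact DFunLike.congr_fun e y, fun ⟨ψ, e⟩ => by
      rw [← e, LinearMap.comp_assoc, h.linearMap_comp_eq_zero, LinearMap.comp_zero]⟩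

/-- the endomorphisms of `K / O` -/
theorem exists_end (φ : KO F →ₗ[F⟦X⟧] KO F) : ∃! f : F⟦X⟧, ∀ x, φ x = f • x := by
  obtain ⟨w, hw⟩ := dual (φ ∘ₗ mk) (a := 0) (by
    rw [LinearMap.comp_apply, mk_eq_zero.2 (uz_mem_ge 0), map_zero])
  have h0 : w ∈ ge 0 := mk_eq_zero.1 (by
    rw [← one_mul w, hw, LinearMap.comp_apply, ← uz_zero, mk_eq_zero.2 (uz_mem_ge 0), map_zero])
  obtain ⟨f, rfl⟩ := DEP.exists_ps h0
  have e : ∀ x, φ x = f • x := fun x => by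
    obtain ⟨z, rfl⟩ := mk_surj x
    rw [smul_mk, mul_comm, ← LinearMap.comp_apply, ← hw, uz_zero, one_mul]
  exact ⟨f, e, fun g hg => IsFractionRing.injective F⟦X⟧ (KK F) (eq_of_mk fun y => by
    rw [mul_comm, ← smul_mk, ← hg, e, smul_mk, mul_comm])⟩

end Vale.Agent.P221X.KO
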