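import Vale.Agent.P221X.Meas.Sub
import Vale.Agent.P221X.DEP.Main

/-!
# P221, measure rings: the module `K / O` and the action of the measures on `K`

* `KO F = K / O`, `KO.mk`, `KO.res` (the coefficient of `u⁻¹`), `KO.dual`;
* `ActK G F` : `G` acts compatibly and continuously on `O` and `K`;
* `Meas.actK` : the action of the measures on `K`, `[y · μ z] = μ (g ↦ [y · g z])`.
-/

set_option linter.all false

noncomputable section

namespace Vale.Agent.P221X

open PowerSeries KK ProG

variable {F : Type} [Field F]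

/-- `O ⊆ K` -/
def geO (F : Type) [Field F] : Submodule (PowerSeries F) (KK F) where
  carrier := {z | z ∈ (ge 0 : Submodule F (KK F))}
  add_mem' := (ge 0).add_mem
  zero_mem' := (ge 0).zero_mem
  smul_mem' f _ hz := by
    rw [Algebra.smul_def]
    exact DEP.mul_ge (algebraMap_mem_ge f) hz

theorem mem_geO {z : KK F} : z ∈ geO F ↔ z ∈ ge 0 := Iff.rfl

/-- the module `K / O` -/
def KO (F : Type) [Field F] : Type := KK F ⧸ geO F

namespace KO

instance : AddCommGroup (KO F) := inferInstanceAs (AddCommGroup (KK F ⧸ geO F))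

instance : Module (PowerSeries F) (KO F) :=
  inferInstanceAs (Module (PowerSeries F) (KK F ⧸ geO F))

/-- the projection -/
def mk : KK F →ₗ[PowerSeries F] KO F := (geO F).mkQ

theorem mk_surj : Function.Surjective (mk : KK F → KO F) := (geO F).mkQ_surjective

theorem mk_eq_zero {z : KK F} : mk z = 0 ↔ z ∈ ge 0 :=
  (Submodule.Quotient.mk_eq_zero (geO F)).trans mem_geO

theorem mk_eq {z w : KK F} : mk z = mk w ↔ z - w ∈ ge 0 := by
  rw [← sub_eq_zero, ← map_sub, mk_eq_zero]

theorem smul_mk (f : PowerSeries F) (z : KK F) :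
    f • mk z = mk (algebraMap (PowerSeries F) (KK F) f * z) := by
  rw [← map_smul, Algebra.smul_def]

theorem alg_X_pow (j : ℕ) : algebraMap (PowerSeries F) (KK F) (X ^ j) = uz j := by
  rw [map_pow, algebraMap_X, DEP.uz_zpow j, zpow_natCast]

theorem X_pow_smul_mk (j : ℕ) (z : KK F) : (X ^ j : PowerSeries F) • mk z = mk (uz j * z) := by
  rw [smul_mk, alg_X_pow]

theorem uz_mul_mem {n k : ℤ} {z : KK F} : uz n * z ∈ ge (k + n) ↔ z ∈ ge k :=
  ⟨fun h m hm => (cf_uz_mul m n z).symm.trans (h _ (by omega)),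
    fun h => add_comm n k ▸ mul_mem_ge (uz_mem_ge n) h⟩

theorem mk_uz_mul {k : ℤ} {z : KK F} : mk (uz (-k) * z) = 0 ↔ z ∈ ge k := by
  rw [mk_eq_zero, ← uz_mul_mem (n := -k) (k := k), add_neg_cancel]

theorem X_pow_smul_eq_zero {n : ℕ} {z : KK F} :
    (X ^ n : PowerSeries F) • mk z = 0 ↔ z ∈ ge (-n : ℤ) := by
  rw [X_pow_smul_mk, ← mk_uz_mul, neg_neg]

theorem exists_tors (x : KO F) : ∃ n : ℕ, (X ^ n : PowerSeries F) • x = 0 := by
  obtain ⟨z, rfl⟩ := mk_surj x
  obtain ⟨m, hm⟩ := exists_ge z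
  exact ⟨m.natAbs, X_pow_smul_eq_zero.2 (ge_mono (by omega) hm)⟩

theorem tors_mono {V : Type} [AddCommGroup V] [Module (PowerSeries F) V] {m n : ℕ} (h : m ≤ n)
    {x : V} (hx : (X ^ m : PowerSeries F) • x = 0) : (X ^ n : PowerSeries F) • x = 0 := by
  obtain ⟨k, rfl⟩ := Nat.exists_eq_add_of_le' h
  rw [pow_add, mul_smul, hx, smul_zero]

/-- the torsion elements are the multiples of `u ^ (-n)` -/
theorem exists_smul {n : ℕ} {x : KO F} (h : (X ^ n : PowerSeries F) • x = 0) :
    ∃ f : PowerSeries F, x = f • mk (uz (-n : ℤ)) := by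
  obtain ⟨z, rfl⟩ := mk_surj x
  obtain ⟨f, rfl⟩ := DEP.exists_ps (X_pow_smul_eq_zero.1 h)
  exact ⟨f, by rw [smul_mk, mul_comm]⟩

/-- the coefficient of `u⁻¹` -/
def res : KO F →+ F :=
  QuotientAddGroup.lift (geO F).toAddSubgroup (cf (-1)).toAddMonoidHom fun z hz =>
    mem_geO.1 hz (-1) (by omega)

@[simp] theorem res_mk (z : KK F) : res (mk z) = cf (-1) z := rfl

theorem res_C (c : F) (x : KO F) : res ((C c : PowerSeries F) • x) = c * res x := by
  obtain ⟨z, rfl⟩ := mk_surj x
  rw [← map_smul, res_mk, res_mk, ← smul_eq_mul, ← map_smul]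
  exact congrArg _ (algebraMap_smul (PowerSeries F) c z)

theorem cf_uz_mul' (n : ℤ) (z : KK F) : cf (-1) (uz n * z) = cf (-n - 1) z := by
  rw [← cf_uz_mul (-n - 1) n z]
  congr 2
  ring

theorem eq_zero_of_res {x : KO F} (h : ∀ j : ℕ, res ((X ^ j : PowerSeries F) • x) = 0) :
    x = 0 := by
  obtain ⟨z, rfl⟩ := mk_surj x
  refine mk_eq_zero.2 fun m hm => ?_
  have := h (-m - 1).toNat
  rw [X_pow_smul_mk, res_mk, cf_uz_mul'] at this
  rwa [show m = -((-m - 1).toNat : ℤ) - 1 by omega]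

theorem eq_of_mk {z w : KK F} (h : ∀ y, mk (y * z) = mk (y * w)) : z = w :=
  sub_eq_zero.1 (eq_zero_of_ge fun n => mk_uz_mul.1 (by rw [mul_sub, map_sub, h, sub_self]))

/-- duality -/
theorem dual (φ : KK F →ₗ[PowerSeries F] KO F) {a : ℤ} (h : φ (uz a) = 0) :
    ∃ w, ∀ y, mk (y * w) = φ y := by
  have e : ∀ (j : ℕ) (m : ℤ), (X ^ j : PowerSeries F) • φ (uz m) = φ (uz (j + m)) := fun j m => by
    rw [← map_smul, Algebra.smul_def, alg_X_pow, uz_add]
  refine ⟨KK.mk (fun n => res (φ (uz (-n - 1)))) (-a) fun m hm => ?_, fun y => ?_⟩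
  · rw [show -m - 1 = (-m - 1 - a).toNat + a by omega, ← e, h, smul_zero, map_zero]
  obtain ⟨m, hm⟩ := exists_ge y
  obtain ⟨f, rfl⟩ := DEP.exists_ps hm
  rw [mul_comm (uz m), mul_assoc, ← smul_mk, ← Algebra.smul_def, map_smul]
  congr 1
  refine sub_eq_zero.1 (eq_zero_of_res fun j => ?_)
  rw [smul_sub, map_sub, e, X_pow_smul_mk, ← mul_assoc, ← uz_add, res_mk, cf_uz_mul', cf_mk,
    sub_eq_zero]
  congr 3
  ring

end KO

/-- a compatible continuous action on `O` and `K` -/
class ActK (G F : Type) [Group G] [ProG G] [Field F] [MulSemiringAction G (PowerSeries F)]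
    [MulSemiringAction G (KK F)] : Prop where
  alg : ∀ (g : G) (f : PowerSeries F), g • algebraMap (PowerSeries F) (KK F) f =
    algebraMap (PowerSeries F) (KK F) (g • f)
  cont : ∀ (z : KK F) (k : ℤ), ∃ i, ∀ g ∈ N (G := G) i, g • z - z ∈ ge k

variable {G : Type} [Group G] [ProG G] [MulSemiringAction G (PowerSeries F)]
  [MulSemiringAction G (KK F)] [ActK G F]

namespace ActK

theorem X_dvd (g : G) : (X : PowerSeries F) ∣ g • X := by
  rw [X_dvd_iff]
  by_contra h
  have := (isUnit_iff_constantCoeff.2 (Ne.isUnit h)).map (MulSemiringAction.toRingHom G _ g⁻¹)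
  simp [isUnit_iff_constantCoeff] at this

theorem uz_mem (g : G) (m : ℤ) : g • (uz m : KK F) ∈ ge m := by
  have h1 : ∀ g : G, ∃ e, g • (uz 1 : KK F) = uz 1 * algebraMap (PowerSeries F) (KK F) e :=
    fun g => (X_dvd (F := F) g).imp fun e h => by rw [← algebraMap_X, alg, h, map_mul]
  have h2 : g • (uz 1 : KK F) ∈ ge 1 :=
    (h1 g).elim fun e h => h ▸ DEP.mul_ge (uz_mem_ge 1) (algebraMap_mem_ge e)
  have h3 : g • (uz (-1) : KK F) ∈ ge (-1) := by
    obtain ⟨e, h⟩ := h1 g⁻¹
    have h4 := congrArg (fun z => g • uz (-1) * (g • z) * uz (-1)) h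
    simp only [smul_inv_smul, smul_mul', alg, ← mul_assoc] at h4
    rw [← smul_mul', mul_comm (uz (-1)), DEP.uz_neg, smul_one, one_mul, mul_assoc, DEP.uz_neg,
      mul_one, mul_comm] at h4
    exact h4 ▸ DEP.mul_ge (uz_mem_ge _) (algebraMap_mem_ge _)
  induction m using Int.induction_on with
  | zero => simpa using uz_mem_ge (F := F) 0
  | succ k ih => rw [uz_add, smul_mul']; exact mul_mem_ge ih h2
  | pred k ih => rw [sub_eq_add_neg, uz_add, smul_mul']; exact mul_mem_ge ih h3

theorem pres (g : G) {m : ℤ} {z : KK F} (hz : z ∈ ge m) : g • z ∈ ge m := by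
  obtain ⟨f, rfl⟩ := DEP.exists_ps hz
  rw [smul_mul', alg]
  exact DEP.mul_ge (uz_mem g m) (algebraMap_mem_ge _)

end ActK

namespace KO

instance : SMul G (KO F) where
  smul g := QuotientAddGroup.map (geO F).toAddSubgroup (geO F).toAddSubgroup
    (DistribSMul.toAddMonoidHom (KK F) g) fun _ hz => mem_geO.2 (ActK.pres g (mem_geO.1 hz))

theorem gsmul_mk (g : G) (z : KK F) : g • mk z = mk (g • z) := rfl

instance : DistribMulAction G (KO F) where
  one_smul x := by obtain ⟨z, rfl⟩ := mk_surj x; rw [gsmul_mk, one_smul]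
  mul_smul a b x := by obtain ⟨z, rfl⟩ := mk_surj x; simp only [gsmul_mk, mul_smul]
  smul_zero g := by rw [← map_zero mk, gsmul_mk, smul_zero]
  smul_add g x y := by
    obtain ⟨z, rfl⟩ := mk_surj x
    obtain ⟨w, rfl⟩ := mk_surj y
    simp only [← map_add, gsmul_mk, smul_add]

instance : SMulDistribClass G (PowerSeries F) (KO F) where
  smul_distrib_smul g f x := by
    obtain ⟨z, rfl⟩ := mk_surj x
    simp only [smul_mk, gsmul_mk, smul_mul', ActK.alg]

instance : Disc G (KO F) where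
  disc x := by
    obtain ⟨z, rfl⟩ := mk_surj x
    exact (ActK.cont (G := G) z 0).imp fun i h g hg => mk_eq.2 (h g hg)

theorem tors_gsmul (g : G) {n : ℕ} {x : KO F} (h : (X ^ n : PowerSeries F) • x = 0) :
    (X ^ n : PowerSeries F) • g • x = 0 := by
  obtain ⟨z, rfl⟩ := mk_surj x
  exact X_pow_smul_eq_zero.2 (ActK.pres g (X_pow_smul_eq_zero.1 h))

variable (G) in
/-- the function `g ↦ [y · g z]` -/
def orbK (z : KK F) : KK F →ₗ[PowerSeries F] LC G (KO F) where
  toFun y := LC.mk (fun g => mk (y * g • z)) (by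
    obtain ⟨m, hm⟩ := exists_ge y
    refine (ActK.cont (G := G) z (-m)).imp fun i h g n hn => mk_eq.2 ?_
    rw [← mul_sub, mul_smul, ← smul_sub]
    simpa using mul_mem_ge hm (ActK.pres g (h n hn)))
  map_add' y y' := LC.ext fun g => by simp [add_mul]
  map_smul' f y := LC.ext fun g => by simp [smul_mk, Algebra.smul_def, mul_assoc]

@[simp] theorem orbK_apply (z y : KK F) (g : G) : orbK G z y g = mk (y * g • z) := rfl

theorem gsmul_orbK (h : G) (z y : KK F) : h • orbK G z y = orbK G z (h • y) :=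
  LC.ext fun g => by simp [gsmul_mk, smul_mul', smul_smul]

theorem exists_act (μ : Meas G (PowerSeries F) (KO F)) (z : KK F) :
    ∃ w, ∀ y, mk (y * w) = μ (orbK G z y) := by
  obtain ⟨m, hm⟩ := exists_ge z
  refine dual ((Meas.lin μ).comp (orbK G z)) (a := -m) ?_
  rw [LinearMap.comp_apply, show orbK G z (uz (-m)) = 0 from
    LC.ext fun g => mk_uz_mul.2 (ActK.pres g hm), map_zero]

end KO

namespace Meas

open KO

/-- the action of a measure on an element of `K` -/
def act0 (μ : Meas G (PowerSeries F) (KO F)) (z : KK F) : KK F := (exists_act μ z).choose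

theorem mk_act0 (μ : Meas G (PowerSeries F) (KO F)) (z y : KK F) :
    KO.mk (y * act0 μ z) = μ (orbK G z y) := (exists_act μ z).choose_spec y

/-- the action of the measures on `K` -/
def actK : Meas G (PowerSeries F) (KO F) →+* AddMonoid.End (KK F) where
  toFun μ := AddMonoidHom.mk' (act0 μ) fun z w => eq_of_mk fun y => by
    rw [mul_add, map_add, mk_act0, mk_act0, mk_act0, ← map_add]
    exact congrArg μ (LC.ext fun g => by simp [mul_add])
  map_one' := AddMonoidHom.ext fun z => eq_of_mk fun y => by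
    change KO.mk (y * act0 _ z) = KO.mk (y * z)
    simp [mk_act0]
  map_mul' μ ν := AddMonoidHom.ext fun z => eq_of_mk fun y => by
    change KO.mk (y * act0 _ z) = KO.mk (y * act0 μ (act0 ν z))
    rw [mk_act0, mk_act0, mul_apply]
    refine congrArg μ (LC.ext fun g => ?_)
    rw [orb_apply, gsmul_orbK, lin_apply, ← mk_act0, gsmul_mk, smul_mul', smul_inv_smul,
      orbK_apply]
  map_zero' := AddMonoidHom.ext fun z => eq_of_mk fun y => by
    change KO.mk (y * act0 _ z) = KO.mk (y * (0 : KK F))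
    simp [mk_act0]
  map_add' μ ν := AddMonoidHom.ext fun z => eq_of_mk fun y => by
    change KO.mk (y * act0 _ z) = KO.mk (y * (act0 μ z + act0 ν z))
    simp [mk_act0, mul_add]

theorem mk_actK (μ : Meas G (PowerSeries F) (KO F)) (z y : KK F) :
    KO.mk (y * actK μ z) = μ (orbK G z y) := mk_act0 μ z y

theorem actK_ofG (g : G) (z : KK F) : actK (ofG (PowerSeries F) (KO F) g) z = g • z :=
  eq_of_mk fun y => by simp [mk_actK]

theorem actK_ofO (f : PowerSeries F) (z : KK F) :
    actK (ofO G (KO F) f) z = algebraMap (PowerSeries F) (KK F) f * z :=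
  eq_of_mk fun y => by simp [mk_actK, smul_mk, mul_left_comm]

theorem actK_mem_ge {μ : Meas G (PowerSeries F) (KO F)} {z : KK F} {k : ℤ} :
    actK μ z ∈ ge k ↔ μ (orbK G z (uz (-k))) = 0 := by rw [← mk_actK, mk_uz_mul]

theorem actK_pres (μ : Meas G (PowerSeries F) (KO F)) {z : KK F} {k : ℤ} (h : z ∈ ge k) :
    actK μ z ∈ ge k := by
  rw [actK_mem_ge, show orbK G z (uz (-k)) = 0 from LC.ext fun g => mk_uz_mul.2 (ActK.pres g h),
    map_zero]

variable {H : Type} [Group H] [ProG H] [MulSemiringAction H (PowerSeries F)]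
  [MulSemiringAction H (KK F)] [ActK H F] {f : H →* G}

theorem smul_KO (hK : ∀ (h : H) (z : KK F), h • z = f h • z) (h : H) (x : KO F) :
    h • x = f h • x := by
  obtain ⟨z, rfl⟩ := mk_surj x
  rw [gsmul_mk, gsmul_mk, hK]

theorem actK_map (hf : IsCont f) (hK : ∀ (h : H) (z : KK F), h • z = f h • z)
    (μ : Meas H (PowerSeries F) (KO F)) (z : KK F) :
    actK (map hf (smul_KO hK) μ) z = actK μ z :=
  eq_of_mk fun y => by
    rw [mk_actK, mk_actK, map_apply]
    exact congrArg μ (LC.ext fun g => by simp [hK])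

end Meas

end Vale.Agent.P221X
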