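import Vale.Agent.P221X.Meas.IW
import Vale.Agent.P221X.GR.Main
import Vale.Agent.P221X.MU.Main
import Vale.Agent.P221X.Base.Top

/-!
# P221: the ring side `RA` for the measures on `G ⊆ G'`
-/

set_option linter.all false

noncomputable section

namespace Vale.Agent.P221X

open PowerSeries KK ProG Meas Finset

variable {p : ℕ} [hp : Fact p.Prime] {F : Type} [Field F]

/-- The big group `G'`, which is generated by `G`, the rotation `ρ` and the Frobenius `τ`. -/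
structure GX (D : GD p F) (G' : Type) [Group G'] [ProG G'] [MulSemiringAction G' (KK F)] where
  inc : D.G →* G'
  opn : OpenEmb inc
  inc_K : ∀ (a : D.G) (z : KK F), D.actK a z = inc a • z
  ρ : G'
  ρ_K : ∀ z : KK F, ρ • z = D.rotK z
  ρ_inc : ∀ a, ρ * inc a * ρ⁻¹ = inc (D.cj a)
  ρ_pow : ρ ^ (p + 1) = 1
  τ : G'
  τ_K : ∀ (c : F) (z : KK F), τ • c • z = c ^ p • τ • z
  ψ_comm : ∀ g, inc D.ψ * g = g * inc D.ψ
  dec : ∀ g, ∃! d : Fin (p + 1) × Fin 2, ∃ a, inc a * (ρ ^ (d.1 : ℕ) * τ ^ (d.2 : ℕ)) = g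

namespace GX

variable {D : GD p F} {G' : Type} [Group G'] [ProG G'] [MulSemiringAction G' (PowerSeries F)]
  [MulSemiringAction G' (KK F)] [ActK G' F] (B : GX D G')

theorem hI (a : D.G) (x : KO F) : a • x = B.inc a • x := smul_KO B.inc_K a x

/-- the inclusion of the rings -/
def incM : D.Rf →+* Meas G' F⟦X⟧ (KO F) := Meas.map B.opn.cont B.hI

/-- the trace -/
def trM : Meas G' F⟦X⟧ (KO F) →+ D.Rf := Meas.tr B.opn

/-- the representatives of the cosets -/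
def δ (d : Fin (p + 1) × Fin 2) : G' := B.ρ ^ (d.1 : ℕ) * B.τ ^ (d.2 : ℕ)

theorem δ_eq {d d' : Fin (p + 1) × Fin 2} {a b : D.G}
    (h : B.inc a * B.δ d = B.inc b * B.δ d') : d = d' :=
  (B.dec _).unique ⟨a, h⟩ ⟨b, rfl⟩

theorem dec_left (g : G') : ∃! d, ∃ a, (B.δ d)⁻¹ * B.inc a = g := by
  obtain ⟨d, ⟨a, ha⟩, hd⟩ := B.dec g⁻¹
  exact ⟨d, ⟨a⁻¹, by rw [map_inv, ← mul_inv_rev, δ, ha, inv_inv]⟩, fun d' ⟨b, hb⟩ =>
    hd d' ⟨b⁻¹, by rw [← hb, mul_inv_rev, inv_inv, map_inv, δ]⟩⟩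

theorem tr_δ (d d' : Fin (p + 1) × Fin 2) :
    B.trM (ofG F⟦X⟧ (KO F) (B.δ d) * ofG F⟦X⟧ (KO F) (B.δ d')⁻¹) = if d = d' then 1 else 0 := by
  rw [← map_mul]
  split_ifs with h
  · rw [h, mul_inv_cancel, map_one]; exact tr_one B.opn
  · exact tr_ofG_of_not B.opn fun ⟨a, ha⟩ =>
      h (B.δ_eq (a := 1) (b := a) (by rw [ha, map_one, one_mul, inv_mul_cancel_right]))

theorem ψ_smul (x : KO F) : B.inc D.ψ • x = x := by
  obtain ⟨z, rfl⟩ := KO.mk_surj x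
  rw [KO.gsmul_mk, ← B.inc_K, GR.actK_ψ]

theorem ψ_central (μ : Meas G' F⟦X⟧ (KO F)) : ofG F⟦X⟧ (KO F) (B.inc D.ψ) * μ = μ * ofG F⟦X⟧ (KO F) (B.inc D.ψ) := Meas.ext fun φ => by
  rw [ofG_mul_apply, ψ_smul, mul_ofG_apply _ μ φ ((B.inc D.ψ)⁻¹ • φ) fun a => by
    rw [LC.gsmul_apply, inv_inv, B.ψ_comm, inv_smul_eq_iff, ψ_smul]]

theorem ρ_smul (x : KO F) : B.ρ • x = D.rotQ x := by
  obtain ⟨z, rfl⟩ := KO.mk_surj x
  rw [KO.gsmul_mk, B.ρ_K, GD.rotQ_mk]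

theorem ρ_mul (r : D.Rf) : ofG F⟦X⟧ (KO F) B.ρ * B.incM r = B.incM (D.mtw.tw r) * ofG F⟦X⟧ (KO F) B.ρ :=
  Meas.ext fun φ => by
    obtain ⟨i, hi⟩ := φ.inv
    rw [mul_ofG_apply B.ρ _ φ (LC.mk (fun a => φ (a * B.ρ)) ⟨i, fun a n hn => by
      simp only [show a * n * B.ρ = a * B.ρ * (B.ρ⁻¹ * n * B.ρ⁻¹⁻¹) by group,
        hi _ _ ((normal i).conj_mem _ hn _)]⟩) fun _ => rfl, ofG_mul_apply, ρ_smul]
    refine congrArg (fun ψ => D.rotQ (r ψ)) (LC.ext fun a => D.rotQ.injective ?_)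
    change D.rotQ (B.ρ⁻¹ • φ (B.ρ⁻¹⁻¹ * B.inc a)) =
      D.rotQ (D.rotQ.symm (φ (B.inc (D.cj a) * B.ρ)))
    rw [← B.ρ_smul, smul_inv_smul, AddEquiv.apply_symm_apply, ← B.ρ_inc, inv_inv,
      inv_mul_cancel_right]

theorem ρ_pow_inc (i : ℕ) (a : D.G) : ∃ b, B.ρ ^ i * B.inc a = B.inc b * B.ρ ^ i := by
  induction i with
  | zero => exact ⟨a, by simp⟩
  | succ i ih =>
    obtain ⟨b, hb⟩ := ih
    exact ⟨D.cj b, by rw [pow_succ', mul_assoc, hb, ← B.ρ_inc]; group⟩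

/-- the idempotent -/
def e : Meas G' F⟦X⟧ (KO F) := ∑ i ∈ range (p + 1), ofG F⟦X⟧ (KO F) B.ρ ^ i

theorem e_ρ : B.e * ofG F⟦X⟧ (KO F) B.ρ = B.e := by
  rw [e, sum_mul, sum_range_succ, ← pow_succ, ← map_pow, B.ρ_pow, map_one, sum_range_succ']
  simp only [pow_succ, pow_zero]

theorem e_ρ_pow (i : ℕ) : B.e * ofG F⟦X⟧ (KO F) B.ρ ^ i = B.e := by
  induction i with
  | zero => simp
  | succ i ih => rw [pow_succ, ← mul_assoc, ih, e_ρ]

theorem tr_e : B.trM B.e = 1 := by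
  have h : ∀ i : Fin (p + 1), B.trM (ofG F⟦X⟧ (KO F) B.ρ ^ (i : ℕ)) = if i = 0 then 1 else 0 := fun i => by
    simpa [δ] using B.tr_δ (i, 0) (0, 0)
  rw [e, sum_range, map_sum]
  simp [h]

theorem e_inc_ρ (i : ℕ) (r : D.Rf) : ∃ s, B.e * B.incM r * ofG F⟦X⟧ (KO F) B.ρ ^ i = B.e * B.incM s := by
  induction i with
  | zero => exact ⟨r, by simp⟩
  | succ i ih =>
    obtain ⟨s, hs⟩ := ih
    exact ⟨D.mtw.tw.symm s, by
      rw [pow_succ, ← mul_assoc, hs, mul_assoc, ← B.e_ρ, mul_assoc, mul_assoc, ρ_mul, ← mul_assoc,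
        e_ρ, RingEquiv.apply_symm_apply]⟩

theorem tr_e_τ (r : D.Rf) : B.trM (B.e * B.incM r * ofG F⟦X⟧ (KO F) B.τ) = 0 := by
  rw [e, sum_range, sum_mul, sum_mul, map_sum]
  refine sum_eq_zero fun i _ => ?_
  rw [← map_pow]
  refine tr_ofG_mul_map_mul_ofG B.opn B.hI _ _ (fun a b h => ?_) r
  obtain ⟨c, hc⟩ := B.ρ_pow_inc i a
  simpa using B.δ_eq (d := (i, 1)) (d' := (0, 0)) (a := c) (b := b)
    (by simpa [δ, ← mul_assoc, ← hc] using h)

theorem e_mul (x : Meas G' F⟦X⟧ (KO F)) : ∃ a b, B.e * x = B.e * B.incM a + B.e * B.incM b * ofG F⟦X⟧ (KO F) B.τ := by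
  have h := eq_sum_right B.opn B.hI B.δ B.dec x
  choose s hs using fun d : Fin (p + 1) × Fin 2 =>
    B.e_inc_ρ d.1 (tr B.opn (x * ofG F⟦X⟧ (KO F) (B.δ d)⁻¹))
  refine ⟨∑ i, s (i, 0), ∑ i, s (i, 1), ?_⟩
  conv_lhs => rw [h, mul_sum, Fintype.sum_prod_type]
  simp only [map_sum, mul_sum, sum_mul, ← sum_add_distrib, ← hs, Fin.sum_univ_two, δ, map_mul,
    map_pow, ← mul_assoc]
  simp [incM]

variable [CharP F p]

theorem p_eq : (p : Meas G' F⟦X⟧ (KO F)) = 0 := by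
  have := charP_of_injective_algebraMap (algebraMap F (PowerSeries F)).injective p
  rw [← map_natCast (ofO G' (KO F)), CharP.cast_eq_zero, map_zero]

theorem e_e : B.e * B.e = B.e := by
  conv_lhs => rw [show B.e * B.e = B.e * ∑ i ∈ range (p + 1), ofG F⟦X⟧ (KO F) B.ρ ^ i from rfl]
  simp [mul_sum, e_ρ_pow, p_eq]

theorem act_e (z : KK F) : actK B.e z = prj (p + 1) z := by
  have h : ∀ i : ℕ, B.ρ ^ i • z = (D.rotK ^ i) z := fun i => by
    induction i with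
    | zero => simp
    | succ i ih => rw [pow_succ', mul_smul, ih, B.ρ_K, pow_succ', AlgEquiv.mul_apply]
  rw [e, map_sum, MU.prj_eq (D := D)]
  exact (AddMonoidHom.finset_sum_apply _ _ z).trans
    (sum_congr rfl fun i _ => by rw [← h, ← map_pow]; exact actK_ofG _ z)

variable {R : Type} [Ring R] [Algebra F R] {S : RD D R} (T : RF S D.Rf) (h1 : T.gr = D.iw.gr)
  (h2 : T.mu = D.iw.mu) (h3 : ∀ r, S.op (T.pr r) = D.iw.op r)

omit [CharP F p] in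
include h1 in
theorem inc_tt : B.incM (T.gr D.ψ - 1) = ofG F⟦X⟧ (KO F) (B.inc D.ψ) - 1 := by
  rw [map_sub, map_one, h1]; rfl

omit [CharP F p] in
include h3 in
theorem act_inc (r : D.Rf) (z : KK F) : actK (B.incM r) z = S.op (T.pr r) z :=
  (actK_map B.opn.cont B.inc_K r z).trans (by rw [h3]; rfl)

/-- **RA** -/
def ra : RA S D.Rf (Meas G' F⟦X⟧ (KO F)) where
  pr := T.pr
  pr_surj := T.pr_surj
  tt := T.gr D.ψ - 1
  tt_reg := T.T_reg
  pr_eq_zero := T.pr_eq_zero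
  inc := B.incM
  tt_comm x := by rw [B.inc_tt T h1, sub_mul, mul_sub, ψ_central, one_mul, mul_one]
  tr := B.trM
  tr_left := tr_map_mul B.opn B.hI
  tr_right r x := tr_mul_map B.opn B.hI x r
  n := (p + 1) * 2
  σ j := ofG F⟦X⟧ (KO F) (B.δ (finProdFinEquiv.symm j))⁻¹
  σ' j := ofG F⟦X⟧ (KO F) (B.δ (finProdFinEquiv.symm j))
  basis_left x := (eq_sum_right B.opn B.hI B.δ B.dec x).trans
    (finProdFinEquiv.symm.sum_comp _).symm
  basis_right x := by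
    simpa only [inv_inv, incM, trM] using (eq_sum_left B.opn B.hI _ B.dec_left x).trans
      (finProdFinEquiv.symm.sum_comp _).symm
  dual j k := by simp only [tr_δ, EmbeddingLike.apply_eq_iff_eq]
  act := actK
  act_inc := B.act_inc T h3
  e := B.e
  e_idem := B.e_e
  act_e := B.act_e
  tr_e := B.tr_e
  e_comm r hr := by
    obtain ⟨s, hs⟩ := (T.pr_eq_zero (T.mu r - r)).1 (by rw [map_sub, T.pr_mu]; exact sub_eq_zero.2 hr)
    have k : ∀ i : ℕ, ∃ y, ofG F⟦X⟧ (KO F) B.ρ ^ i * B.incM r - B.incM r * ofG F⟦X⟧ (KO F) B.ρ ^ i =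
        B.incM (T.gr D.ψ - 1) * y := fun i => by
      induction i with
      | zero => exact ⟨0, by simp⟩
      | succ i ih =>
        obtain ⟨y, hy⟩ := ih
        have c : ofG F⟦X⟧ (KO F) B.ρ * B.incM (T.gr D.ψ - 1) = B.incM (T.gr D.ψ - 1) * ofG F⟦X⟧ (KO F) B.ρ := by
          rw [B.inc_tt T h1, sub_mul, mul_sub, ψ_central, one_mul, mul_one]
        have c' : ofG F⟦X⟧ (KO F) B.ρ * B.incM r = B.incM (T.gr D.ψ - 1) * B.incM s * ofG F⟦X⟧ (KO F) B.ρ +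
            B.incM r * ofG F⟦X⟧ (KO F) B.ρ := by
          rw [← map_mul, ← hs, ← add_mul, ← map_add, sub_add_cancel, h2, ρ_mul]; rfl
        refine ⟨ofG F⟦X⟧ (KO F) B.ρ * y + B.incM s * ofG F⟦X⟧ (KO F) B.ρ ^ (i + 1), ?_⟩
        rw [mul_add, ← mul_assoc, ← c, mul_assoc, ← hy, mul_sub, ← mul_assoc _ (B.incM r), c']
        simp only [pow_succ']
        noncomm_ring
    choose y hy using k
    exact ⟨∑ i ∈ range (p + 1), y i, by
      simp only [e, sum_mul, mul_sum, ← sum_sub_distrib, hy]⟩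
  τ := DistribSMul.toAddMonoidHom (KK F) B.τ
  τ_smul := B.τ_K
  sem x := by
    obtain ⟨a, b, h⟩ := B.e_mul x
    have t : B.trM (B.e * x) = a := by
      rw [h, map_add, tr_e_τ, add_zero]
      exact (tr_mul_map B.opn B.hI _ a).trans (by rw [show tr B.opn B.e = 1 from B.tr_e, one_mul])
    refine ⟨b, fun z => ?_⟩
    rw [t, h, map_add, map_mul, map_mul, map_mul, map_add]
    change actK B.e (actK (B.incM a) z) + actK B.e (actK (B.incM b) (actK (ofG F⟦X⟧ (KO F) B.τ) z)) = _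
    rw [act_e, act_e, B.act_inc T h3, B.act_inc T h3, actK_ofG]
    rfl

theorem exists_ra (h5 : 5 ≤ p) : ∃ (R : Type) (_ : Ring R) (_ : Algebra F R) (S : RD D R)
    (A₀ : RA S D.Rf (Meas G' F⟦X⟧ (KO F))), A₀.act = actK ∧ A₀.inc A₀.tt = ofG F⟦X⟧ (KO F) (B.inc D.ψ) - 1 := by
  obtain ⟨R, _, _, S, T, -, h1, -, h2, h3⟩ := D.iw.out h5 (rowDEP D)
  exact ⟨R, _, _, S, B.ra T h1 h2 h3, rfl, B.inc_tt T h1⟩

end GX

end Vale.Agent.P221X
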