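import Mathlib.Algebra.Ring.Action.Basic
import Mathlib.Algebra.Module.LinearMap.Basic
import Mathlib.Algebra.Module.Submodule.Basic
import Mathlib.Algebra.Module.Pi
import Mathlib.GroupTheory.Index
import Mathlib.Data.Set.Finite.Lattice
import Mathlib.Tactic.Group
import Mathlib.Algebra.Module.LinearMap.End
import Mathlib.Algebra.BigOperators.GroupWithZero.Action

/-!
# P221, measure rings

`G` is a group with a descending family `N i` of normal subgroups of finite index (`ProG`), acting
on a commutative ring `O` and semilinearly on an `O`-module `I`.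

* `Disc G V` : every element of `V` is fixed by some `N i`;
* `LC G I` : the functions `G → I` which are invariant under some `N i`;
* `Meas G O I = Hom_O (LC G I, I)` : a ring, which acts on `Hom_O (V, I)` for every discrete
  semilinear module `V` by `(μ • φ) x = μ (g ↦ g • φ (g⁻¹ • x))`.
-/

set_option linter.unusedSectionVars false

namespace Vale.Agent.P221X

/-- A descending family of normal subgroups of finite index. -/
class ProG (G : Type) [Group G] where
  N : ℕ → Subgroup G
  normal : ∀ i, (N i).Normal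
  anti : Antitone N
  fin : ∀ i, (N i).FiniteIndex

open ProG

attribute [instance] ProG.normal ProG.fin

/-- Every element is fixed by some `N i`. -/
class Disc (G V : Type) [Group G] [ProG G] [SMul G V] : Prop where
  disc : ∀ x : V, ∃ i, ∀ n ∈ N (G := G) i, n • x = x

section Fin

variable {G : Type} [Group G] [ProG G]

theorem finite_range_of_inv {Y : Type*} {F : G → Y} {i : ℕ}
    (h : ∀ g, ∀ n ∈ N (G := G) i, F (g * n) = F g) : (Set.range F).Finite := by
  have : Finite (G ⧸ N (G := G) i) := Subgroup.finite_quotient_of_finiteIndex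
  refine (Set.finite_range fun c : G ⧸ N (G := G) i => F c.out).subset ?_
  rintro _ ⟨g, rfl⟩
  obtain ⟨n, hn⟩ := QuotientGroup.mk_out_eq_mul (N (G := G) i) g
  exact ⟨(g : G ⧸ N (G := G) i), by simp only [hn]; exact h g n n.2⟩

theorem Disc.exists_of_finite {V : Type} [SMul G V] [Disc G V] {s : Set V} (hs : s.Finite) :
    ∃ i, ∀ x ∈ s, ∀ n ∈ N (G := G) i, n • x = x := by
  induction s, hs using Set.Finite.induction_on with
  | empty => exact ⟨0, fun _ h => h.elim⟩
  | @insert a s _ _ ih =>
    obtain ⟨i, hi⟩ := ih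
    obtain ⟨j, hj⟩ := Disc.disc (G := G) a
    refine ⟨max i j, fun x hx n hn => ?_⟩
    rcases hx with rfl | hx
    · exact hj n (anti (le_max_right i j) hn)
    · exact hi x hx n (anti (le_max_left i j) hn)

end Fin

/-- the functions which are invariant under some `N i` -/
def lcSub (G I : Type) [Group G] [ProG G] [AddCommGroup I] : AddSubgroup (G → I) where
  carrier := {F | ∃ i, ∀ g, ∀ n ∈ N (G := G) i, F (g * n) = F g}
  zero_mem' := ⟨0, fun _ _ _ => rfl⟩
  add_mem' := by
    rintro F F' ⟨i, hi⟩ ⟨j, hj⟩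
    refine ⟨max i j, fun g n hn => ?_⟩
    simp only [Pi.add_apply, hi g n (anti (le_max_left i j) hn),
      hj g n (anti (le_max_right i j) hn)]
  neg_mem' := by
    rintro F ⟨i, hi⟩
    exact ⟨i, fun g n hn => by simp only [Pi.neg_apply, hi g n hn]⟩

/-- The locally constant functions `G → I`. -/
def LC (G I : Type) [Group G] [ProG G] [AddCommGroup I] : Type := lcSub G I

namespace LC

variable {G I : Type} [Group G] [ProG G] [AddCommGroup I]

instance : AddCommGroup (LC G I) := inferInstanceAs (AddCommGroup (lcSub G I))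

instance : FunLike (LC G I) G I where
  coe F := F.1
  coe_injective _ _ h := Subtype.ext h

@[ext] theorem ext {F F' : LC G I} (h : ∀ g, F g = F' g) : F = F' := DFunLike.ext _ _ h

/-- constructor -/
def mk (F : G → I) (h : ∃ i, ∀ g, ∀ n ∈ N (G := G) i, F (g * n) = F g) : LC G I := ⟨F, h⟩

@[simp] theorem mk_apply (F : G → I) (h) (g : G) : mk F h g = F g := rfl

theorem inv (F : LC G I) : ∃ i, ∀ g, ∀ n ∈ N (G := G) i, F (g * n) = F g := F.2

theorem finite_range (F : LC G I) : (Set.range F).Finite :=
  F.inv.elim fun _ h => finite_range_of_inv h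

@[simp] theorem zero_apply (g : G) : (0 : LC G I) g = 0 := rfl
@[simp] theorem add_apply (F F' : LC G I) (g : G) : (F + F') g = F g + F' g := rfl
@[simp] theorem neg_apply (F : LC G I) (g : G) : (-F) g = -F g := rfl
@[simp] theorem sub_apply (F F' : LC G I) (g : G) : (F - F') g = F g - F' g := rfl

/-- evaluation, as an additive map -/
def evA (g : G) : LC G I →+ I := AddMonoidHom.mk' (fun F => F g) fun _ _ => rfl

theorem sum_apply {ι : Type*} (s : Finset ι) (F : ι → LC G I) (g : G) :
    (∑ i ∈ s, F i) g = ∑ i ∈ s, F i g := map_sum (evA g) F s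

section Mod

variable {O : Type} [Ring O] [Module O I]

instance : Module O (LC G I) where
  smul f F := mk (fun g => f • F g) (F.inv.imp fun _ h g n hn => by simp only [h g n hn])
  one_smul F := ext fun g => one_smul O (F g)
  mul_smul a b F := ext fun g => mul_smul a b (F g)
  smul_zero a := ext fun _ => smul_zero a
  smul_add a F F' := ext fun g => smul_add a (F g) (F' g)
  add_smul a b F := ext fun g => add_smul a b (F g)
  zero_smul F := ext fun g => zero_smul O (F g)

@[simp] theorem smul_apply (f : O) (F : LC G I) (g : G) : (f • F) g = f • F g := rfl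

/-- evaluation -/
def ev (O : Type) [Ring O] [Module O I] (g : G) : LC G I →ₗ[O] I where
  toFun F := F g
  map_add' _ _ := rfl
  map_smul' _ _ := rfl

@[simp] theorem ev_apply (g : G) (F : LC G I) : ev O g F = F g := rfl

end Mod

variable [DistribMulAction G I]

instance : DistribMulAction G (LC G I) where
  smul h F := mk (fun g => h • F (h⁻¹ * g))
    (F.inv.imp fun _ hF g n hn => by simp only [← mul_assoc, hF _ n hn])
  one_smul F := ext fun g => by
    change (1 : G) • F (1⁻¹ * g) = F g
    simp
  mul_smul a b F := ext fun g => by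
    change (a * b) • F ((a * b)⁻¹ * g) = a • b • F (b⁻¹ * (a⁻¹ * g))
    rw [mul_smul, mul_inv_rev, mul_assoc]
  smul_zero a := ext fun _ => smul_zero a
  smul_add a F F' := ext fun _ => smul_add a _ _

@[simp] theorem gsmul_apply (h : G) (F : LC G I) (g : G) : (h • F) g = h • F (h⁻¹ * g) := rfl

instance [Disc G I] : Disc G (LC G I) where
  disc F := by
    obtain ⟨i, hi⟩ := F.inv
    obtain ⟨j, hj⟩ := Disc.exists_of_finite (G := G) F.finite_range
    refine ⟨max i j, fun n hn => ext fun g => ?_⟩
    have h1 : g⁻¹ * n⁻¹ * g⁻¹⁻¹ ∈ N (G := G) i :=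
      (normal i).conj_mem _ (inv_mem (anti (le_max_left i j) hn)) _
    have h2 : n⁻¹ * g = g * (g⁻¹ * n⁻¹ * g⁻¹⁻¹) := by group
    rw [gsmul_apply, h2, hi g _ h1]
    exact hj _ ⟨g, rfl⟩ n (anti (le_max_right i j) hn)

instance {O : Type} [Ring O] [Module O I] [MulSemiringAction G O] [SMulDistribClass G O I] :
    SMulDistribClass G O (LC G I) where
  smul_distrib_smul _ _ _ := ext fun _ => smul_distrib_smul _ _ _

end LC

section Orb

variable (G : Type) {O I : Type} [Group G] [ProG G] [CommRing O] [MulSemiringAction G O]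
  [AddCommGroup I] [Module O I] [DistribMulAction G I] [SMulDistribClass G O I] [Disc G I]
  {V : Type} [AddCommGroup V] [Module O V] [DistribMulAction G V] [SMulDistribClass G O V]
  [Disc G V]

theorem orb_inv (φ : V →ₗ[O] I) (x : V) :
    ∃ i, ∀ g, ∀ n ∈ N (G := G) i, (g * n) • φ ((g * n)⁻¹ • x) = g • φ (g⁻¹ • x) := by
  obtain ⟨i, hi⟩ := Disc.disc (G := G) x
  have h1 : ∀ g : G, ∀ n ∈ N (G := G) i, (g * n)⁻¹ • x = g⁻¹ • x := fun g n hn => by
    have h2 : (g * n)⁻¹ = g⁻¹ * (g * n⁻¹ * g⁻¹) := by group
    rw [h2, mul_smul, hi _ ((normal i).conj_mem _ (inv_mem hn) _)]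
  have hf : (Set.range fun g : G => φ (g⁻¹ • x)).Finite :=
    finite_range_of_inv (i := i) fun g n hn => by simp only [h1 g n hn]
  obtain ⟨j, hj⟩ := Disc.exists_of_finite (G := G) hf
  refine ⟨max i j, fun g n hn => ?_⟩
  rw [h1 g n (anti (le_max_left i j) hn), mul_smul,
    hj _ ⟨g, rfl⟩ n (anti (le_max_right i j) hn)]

/-- the equivariant map `V → LC G I` of a functional -/
def orb (φ : V →ₗ[O] I) : V →ₗ[O] LC G I where
  toFun x := LC.mk (fun g => g • φ (g⁻¹ • x)) (orb_inv G φ x)
  map_add' x y := LC.ext fun g => by simp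
  map_smul' f x := LC.ext fun g => by
    simp only [LC.mk_apply, RingHom.id_apply, LC.smul_apply]
    rw [smul_distrib_smul, map_smul, smul_distrib_smul, smul_inv_smul]

variable {G}

@[simp] theorem orb_apply (φ : V →ₗ[O] I) (x : V) (g : G) : orb G φ x g = g • φ (g⁻¹ • x) := rfl

theorem orb_smul (φ : V →ₗ[O] I) (h : G) (x : V) : orb G φ (h • x) = h • orb G φ x :=
  LC.ext fun g => by simp [smul_smul]

theorem orb_add (φ ψ : V →ₗ[O] I) : orb G (φ + ψ) = orb G φ + orb G ψ :=
  LinearMap.ext fun x => LC.ext fun g => by simp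

theorem orb_zero : orb G (0 : V →ₗ[O] I) = 0 :=
  LinearMap.ext fun x => LC.ext fun g => by simp

theorem orb_ev_one : orb G (LC.ev O (1 : G) : LC G I →ₗ[O] I) = LinearMap.id :=
  LinearMap.ext fun F => LC.ext fun g => by simp

theorem ev_one_orb (φ : V →ₗ[O] I) : (LC.ev O (1 : G)).comp (orb G φ) = φ :=
  LinearMap.ext fun x => by simp

/-- naturality -/
theorem orb_comp {V' : Type} [AddCommGroup V'] [Module O V'] [DistribMulAction G V']
    [SMulDistribClass G O V'] [Disc G V'] (φ : V →ₗ[O] I) (a : V' →ₗ[O] V)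
    (ha : ∀ (g : G) x, a (g • x) = g • a x) : orb G (φ.comp a) = (orb G φ).comp a :=
  LinearMap.ext fun x => LC.ext fun g => by simp [ha]

end Orb

/-- The ring of measures. -/
def Meas (G O I : Type) [Group G] [ProG G] [CommRing O] [AddCommGroup I] [Module O I] : Type :=
  LC G I →ₗ[O] I

namespace Meas

variable {G O I : Type} [Group G] [ProG G] [CommRing O] [AddCommGroup I] [Module O I]

instance : AddCommGroup (Meas G O I) := inferInstanceAs (AddCommGroup (LC G I →ₗ[O] I))

/-- the underlying functional -/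
def lin : Meas G O I ≃+ (LC G I →ₗ[O] I) := AddEquiv.refl _

instance : FunLike (Meas G O I) (LC G I) I where
  coe μ := lin μ
  coe_injective _ _ h := lin.injective (DFunLike.coe_injective h)

@[ext] theorem ext {μ ν : Meas G O I} (h : ∀ F, μ F = ν F) : μ = ν := DFunLike.ext _ _ h

@[simp] theorem lin_apply (μ : Meas G O I) (F : LC G I) : lin μ F = μ F := rfl
@[simp] theorem symm_apply (μ : LC G I →ₗ[O] I) (F : LC G I) : (lin.symm μ : Meas G O I) F = μ F :=
  rfl
@[simp] theorem zero_apply (F : LC G I) : (0 : Meas G O I) F = 0 := rfl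
@[simp] theorem add_apply (μ ν : Meas G O I) (F : LC G I) : (μ + ν) F = μ F + ν F := rfl
@[simp] theorem neg_apply (μ : Meas G O I) (F : LC G I) : (-μ) F = -μ F := rfl
@[simp] theorem sub_apply (μ ν : Meas G O I) (F : LC G I) : (μ - ν) F = μ F - ν F := rfl

instance : LinearMapClass (Meas G O I) O (LC G I) I where
  map_add μ := (lin μ).map_add
  map_smulₛₗ μ := (lin μ).map_smul

theorem sum_apply {ι : Type*} (s : Finset ι) (μ : ι → Meas G O I) (F : LC G I) :
    (∑ i ∈ s, μ i) F = ∑ i ∈ s, μ i F := by
  classical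
  induction s using Finset.induction_on with
  | empty => rfl
  | insert a s ha ih => rw [Finset.sum_insert ha, Finset.sum_insert ha, add_apply, ih]

variable [MulSemiringAction G O] [DistribMulAction G I] [SMulDistribClass G O I] [Disc G I]

instance : Ring (Meas G O I) where
  __ := (inferInstance : AddCommGroup (Meas G O I))
  mul μ ν := lin.symm ((lin μ).comp (orb G (lin ν)))
  one := lin.symm (LC.ev O 1)
  left_distrib μ ν ν' := by
    change lin.symm ((lin μ).comp (orb G (lin ν + lin ν'))) = _
    rw [orb_add, LinearMap.comp_add]; rfl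
  right_distrib μ ν ν' := rfl
  zero_mul _ := rfl
  mul_zero μ := by
    change lin.symm ((lin μ).comp (orb G 0)) = _
    rw [orb_zero, LinearMap.comp_zero]; rfl
  mul_assoc μ ν ρ := by
    change lin.symm (((lin μ).comp (orb G (lin ν))).comp (orb G (lin ρ))) =
      lin.symm ((lin μ).comp (orb G ((lin ν).comp (orb G (lin ρ)))))
    rw [orb_comp _ _ fun g x => orb_smul _ g x, LinearMap.comp_assoc]
  one_mul μ := by
    change lin.symm ((LC.ev O 1).comp (orb G (lin μ))) = _
    rw [ev_one_orb]; rfl
  mul_one μ := by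
    change lin.symm ((lin μ).comp (orb G (LC.ev O 1))) = _
    rw [orb_ev_one]; rfl

theorem mul_apply (μ ν : Meas G O I) (F : LC G I) : (μ * ν) F = μ (orb G (lin ν) F) := rfl

@[simp] theorem one_apply (F : LC G I) : (1 : Meas G O I) F = F 1 := rfl

section Act

variable {V : Type} [AddCommGroup V] [Module O V] [DistribMulAction G V] [SMulDistribClass G O V]
  [Disc G V]

instance : Module (Meas G O I) (V →ₗ[O] I) where
  smul μ φ := (lin μ).comp (orb G φ)
  one_smul φ := ev_one_orb φ
  mul_smul μ ν φ := by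
    change ((lin μ).comp (orb G (lin ν))).comp (orb G φ) =
      (lin μ).comp (orb G ((lin ν).comp (orb G φ)))
    rw [orb_comp _ _ fun g x => orb_smul _ g x, LinearMap.comp_assoc]
  smul_zero μ := by
    change (lin μ).comp (orb G 0) = _
    rw [orb_zero, LinearMap.comp_zero]
  smul_add μ φ ψ := by
    change (lin μ).comp (orb G (φ + ψ)) = _
    rw [orb_add, LinearMap.comp_add]; rfl
  add_smul _ _ _ := rfl
  zero_smul _ := rfl

theorem smul_apply (μ : Meas G O I) (φ : V →ₗ[O] I) (x : V) : (μ • φ) x = μ (orb G φ x) := rfl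

theorem smul_def (μ : Meas G O I) (φ : V →ₗ[O] I) : μ • φ = (lin μ).comp (orb G φ) := rfl

theorem lin_mul (μ ν : Meas G O I) : lin (μ * ν) = μ • lin ν := rfl

/-- naturality of the action -/
theorem smul_comp {V' : Type} [AddCommGroup V'] [Module O V'] [DistribMulAction G V']
    [SMulDistribClass G O V'] [Disc G V'] (μ : Meas G O I) (φ : V →ₗ[O] I) (a : V' →ₗ[O] V)
    (ha : ∀ (g : G) x, a (g • x) = g • a x) : (μ • φ).comp a = μ • φ.comp a := by
  rw [smul_def, smul_def, orb_comp _ _ ha, LinearMap.comp_assoc]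

end Act

variable (O I) in
/-- the Dirac measures -/
def ofG : G →* Meas G O I where
  toFun g := lin.symm (LC.ev O g)
  map_one' := rfl
  map_mul' g h := ext fun F => by simp [mul_apply]

variable (G I) in
/-- the scalars -/
def ofO : O →+* Meas G O I where
  toFun f := lin.symm (f • LC.ev O 1)
  map_one' := by rw [one_smul]; rfl
  map_mul' f f' := ext fun F => by simp [mul_apply, mul_smul]
  map_zero' := by rw [zero_smul]; rfl
  map_add' f f' := by rw [add_smul]; rfl

@[simp] theorem ofG_apply (g : G) (F : LC G I) : ofG O I g F = F g := rfl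

@[simp] theorem ofO_apply (f : O) (F : LC G I) : ofO G I f F = f • F 1 := rfl

theorem ofO_mul_apply (f : O) (μ : Meas G O I) (F : LC G I) : (ofO G I f * μ) F = f • μ F := by
  simp [mul_apply]

theorem ofG_mul_apply (g : G) (μ : Meas G O I) (F : LC G I) :
    (ofG O I g * μ) F = g • μ (g⁻¹ • F) := rfl

theorem mul_ofG_apply (g : G) (μ : Meas G O I) (F : LC G I) (F' : LC G I)
    (h : ∀ a, F' a = F (a * g)) : (μ * ofG O I g) F = μ F' := by
  rw [mul_apply]
  congr 1
  exact LC.ext fun a => by simp [h]

theorem mul_ofO_apply (f : O) (μ : Meas G O I) (F : LC G I) (F' : LC G I)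
    (h : ∀ a, F' a = (a • f) • F a) : (μ * ofO G I f) F = μ F' := by
  rw [mul_apply]
  congr 1
  exact LC.ext fun a => by simp [h, smul_distrib_smul a f]

theorem ofG_mul_ofO (g : G) (f : O) :
    ofG O I g * ofO G I f = ofO G I (g • f) * ofG O I g :=
  ext fun F => by simp [mul_apply, smul_distrib_smul g f]

section Act

variable {V : Type} [AddCommGroup V] [Module O V] [DistribMulAction G V] [SMulDistribClass G O V]
  [Disc G V]

@[simp] theorem ofG_smul_apply (g : G) (φ : V →ₗ[O] I) (x : V) :
    (ofG O I g • φ) x = g • φ (g⁻¹ • x) := rfl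

theorem ofO_smul (f : O) (φ : V →ₗ[O] I) : ofO G I f • φ = f • φ :=
  LinearMap.ext fun x => by simp [smul_apply]

end Act

end Meas

end Vale.Agent.P221X
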