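import Vale.Agent.P221X.Meas.Tw
import Vale.Agent.P221X.GR.Defs

/-!
# P221: the ring of measures on `G` is a model of `O[[G]]`
-/

set_option linter.all false

noncomputable section

namespace Vale.Agent.P221X

open PowerSeries KK ProG

variable {p : ℕ} {F : Type} [Field F] (D : GD p F)

namespace GD

instance : MulSemiringAction D.G (PowerSeries F) := MulSemiringAction.compHom _ D.act

instance : MulSemiringAction D.G (KK F) := MulSemiringAction.compHom _ D.actK

theorem smul_O (a : D.G) (f : PowerSeries F) : a • f = D.act a f := rfl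

theorem smul_K (a : D.G) (z : KK F) : a • z = D.actK a z := rfl

instance : SMulCommClass D.G F (PowerSeries F) := ⟨fun a c f => map_smul (D.act a) c f⟩

variable [hp : Fact p.Prime]

instance : ProG D.G where
  N := D.Gf
  normal := D.Gf_normal
  anti _ _ := D.Gf_anti
  fin i := by
    have : (D.Gf (i + 1)).FiniteIndex :=
      ⟨by rw [DEP.index]; exact pow_ne_zero _ hp.1.ne_zero⟩
    exact Subgroup.finiteIndex_of_le (D.Gf_anti i.le_succ)

theorem N_eq : N (G := D.G) = D.Gf := rfl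

instance : ActK D.G F where
  alg := D.actK_alg
  cont z k := by
    obtain ⟨m, hm⟩ := exists_ge z
    exact (D.cont (k - m).toNat).imp fun i h g hg =>
      ge_mono (by omega) (DEP.gain (h g hg) m z hm)

theorem rotK_ge {m : ℤ} {z : KK F} : D.rotK z ∈ ge m ↔ z ∈ ge m :=
  forall₂_congr fun n _ => by
    simp [D.rotK_cf, zpow_ne_zero n (D.ζ_prim.ne_zero p.succ_ne_zero)]

theorem cj_iff (i : ℕ) (a : D.G) : D.cj a ∈ D.Gf i ↔ a ∈ D.Gf i := by
  refine ⟨fun h => ?_, D.cj_mem i a⟩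
  have : ∀ n, (D.cj ^ n) (D.cj a) ∈ D.Gf i := fun n => by
    induction n with
    | zero => exact h
    | succ n ih => rw [pow_succ']; exact D.cj_mem i _ ih
  simpa only [← MulAut.mul_apply, ← pow_succ, D.cj_pow] using this p

/-- the rotation of `K / O` -/
def rotQ : KO F ≃+ KO F :=
  QuotientAddGroup.congr (geO F).toAddSubgroup (geO F).toAddSubgroup D.rotK.toAddEquiv (by
    ext z
    refine ⟨?_, fun h => ⟨D.rotK.symm z, D.rotK_ge.1 (by simpa using mem_geO.1 h), by simp⟩⟩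
    rintro ⟨w, hw, rfl⟩
    exact D.rotK_ge.2 hw)

theorem rotQ_mk (z : KK F) : D.rotQ (KO.mk z) = KO.mk (D.rotK z) := rfl

/-- the twist by the rotation -/
def mtw : MTw D.G (PowerSeries F) (KO F) where
  σ := D.cj
  ρO := D.rot.toRingEquiv
  ρ := D.rotQ
  ρ_smul f x := by
    obtain ⟨z, rfl⟩ := KO.mk_surj x
    simp [KO.smul_mk, rotQ_mk, DEP.rotK_alg]
  ρ_g g x := by
    obtain ⟨z, rfl⟩ := KO.mk_surj x
    simp only [KO.gsmul_mk, rotQ_mk, smul_K, DEP.actK_cj]
  mem := D.cj_iff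

/-- the ring `O[[G]]` -/
abbrev Rf : Type := Meas D.G (PowerSeries F) (KO F)

theorem lev_pull {l n : ℕ} {φ : LC D.G (KO F)} (h : LC.Lev l n φ) : LC.Lev l n (D.mtw.pull φ) :=
  ⟨fun g m hm => by simp only [MTw.pull_apply, map_mul, h.inv _ _ ((D.mtw.mem l m).2 hm)],
    fun g => by
      obtain ⟨z, hz⟩ := KO.mk_surj (D.mtw.pull φ g)
      have := h.tor (D.cj g)
      rw [show φ (D.cj g) = D.rotQ (D.mtw.pull φ g) from (D.rotQ.apply_symm_apply _).symm, ← hz,
        rotQ_mk, KO.X_pow_smul_eq_zero, rotK_ge] at this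
      exact hz ▸ KO.X_pow_smul_eq_zero.2 this⟩

theorem actK_smul (μ : D.Rf) (c : F) (z : KK F) : Meas.actK μ (c • z) = c • Meas.actK μ z :=
  KO.eq_of_mk fun y => by
    rw [mul_smul_comm, ← smul_mul_assoc, Meas.mk_actK, Meas.mk_actK]
    exact congrArg μ (LC.ext fun g => by simp [smul_K])

/-- the action on `K` -/
def opK : D.Rf →ₐ[F] Module.End F (KK F) where
  toFun μ := ⟨(Meas.actK μ : KK F →+ KK F).toAddHom, D.actK_smul μ⟩
  map_one' := LinearMap.ext fun z => DFunLike.congr_fun (map_one Meas.actK) z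
  map_mul' μ ν := LinearMap.ext fun z => DFunLike.congr_fun (map_mul Meas.actK μ ν) z
  map_zero' := LinearMap.ext fun z => DFunLike.congr_fun (map_zero Meas.actK) z
  map_add' μ ν := LinearMap.ext fun z => DFunLike.congr_fun (map_add Meas.actK μ ν) z
  commutes' c := LinearMap.ext fun z => (Meas.actK_ofO _ z).trans (by
    rw [← IsScalarTower.algebraMap_apply, ← Algebra.smul_def]; rfl)

theorem opK_apply (μ : D.Rf) (z : KK F) : D.opK μ z = Meas.actK μ z := rfl

/-- the coordinates -/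
def lvM (l i : ℕ) (c : D.G ⧸ D.Gf l) : D.Rf →ₗ[F] F where
  toFun := Meas.lv0 l i c
  map_add' _ _ := map_add KO.res _ _
  map_smul' a μ := by
    rw [Meas.lv0, Meas.fsmul_apply]
    exact KO.res_C a _

theorem van_iff {l n : ℕ} {μ : D.Rf} : GR.Van D.lvM l n μ ↔ Meas.Kill l n μ := Meas.kill_iff.symm

/-- **IW** -/
def iw : GR.IW D D.Rf where
  sc := { Meas.ofO D.G (KO F) with commutes' := fun _ => rfl }
  gr := Meas.ofG _ _
  skew := Meas.ofG_mul_ofO
  lv := D.lvM
  lv_gen l i c f a := Meas.lv0_gen i c f a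
  van_anti l n r h := D.van_iff.2 ((D.van_iff.1 h).mono l.le_succ le_rfl)
  van_left l n r s h := D.van_iff.2 ((D.van_iff.1 h).left s)
  van_right l n r s e h := D.van_iff.2 ((D.van_iff.1 h).right s fun a ha x hx => by
    obtain ⟨z, rfl⟩ := KO.mk_surj x
    exact KO.mk_eq.2 (by
      simpa [DEP.TT_apply, smul_K] using DEP.gain (e a ha) _ z (KO.X_pow_smul_eq_zero.1 hx)))
  sep r h := Meas.eq_zero_of_kill fun n => D.van_iff.1 (h n)
  complete s h := (Meas.exists_lim s fun n => D.van_iff.1 (h n)).imp fun y e n =>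
    D.van_iff.2 (e n)
  op := D.opK
  op_sc := Meas.actK_ofO
  op_gr := Meas.actK_ofG
  op_cont z k := (Meas.actK_cont z k).imp fun n h r e => h r (D.van_iff.1 e)
  mu := AlgEquiv.ofRingEquiv (f := D.mtw.tw) fun c => (D.mtw.tw_ofO _).trans
    (congrArg (Meas.ofO D.G (KO F)) (D.rot.commutes c))
  mu_sc := D.mtw.tw_ofO
  mu_gr := D.mtw.tw_ofG
  mu_van l n r h := D.van_iff.2 fun φ hφ => by
    change D.mtw.tw r φ = 0
    rw [MTw.tw_apply, D.van_iff.1 h _ (D.lev_pull hφ), map_zero]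

theorem iw_sc (f : PowerSeries F) : D.iw.sc f = Meas.ofO D.G (KO F) f := rfl

theorem iw_gr (a : D.G) : D.iw.gr a = Meas.ofG _ _ a := rfl

theorem iw_op (μ : D.Rf) (z : KK F) : D.iw.op μ z = Meas.actK μ z := rfl

theorem iw_mu (μ : D.Rf) : D.iw.mu μ = D.mtw.tw μ := rfl

end GD

/-- Row IW -/
theorem GR.rowIW [Fact p.Prime] : GR.RowIW D := ⟨_, _, _, ⟨D.iw⟩⟩

end Vale.Agent.P221X
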