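import Vale.Agent.P221X.Meas.Basic

/-!
# P221, measure rings: change of the group

* `Meas.map f` : the ring homomorphism of a compatible homomorphism of groups `f : H →* G`;
* `OpenEmb f` : `f` is injective with open image and the filtrations are cofinal;
* `Meas.tr hf` : the trace, a map of bimodules;
* `Meas.eq_sum_left`, `Meas.eq_sum_right` : dual bases given by representatives of the cosets.
-/

set_option linter.unusedSectionVars false

namespace Vale.Agent.P221X

open ProG

section Cont

variable {H G : Type} [Group H] [ProG H] [Group G] [ProG G]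

/-- continuous homomorphisms -/
def IsCont (f : H →* G) : Prop := ∀ i, ∃ j, ∀ n ∈ N (G := H) j, f n ∈ N (G := G) i

/-- open embeddings -/
structure OpenEmb (f : H →* G) : Prop where
  inj : Function.Injective f
  cont : IsCont f
  opn : ∀ j, ∃ i, ∀ g ∈ N (G := G) i, ∃ n ∈ N (G := H) j, f n = g

theorem Disc.of_cont {V : Type} [SMul G V] [SMul H V] [Disc G V] {f : H →* G} (hf : IsCont f)
    (hV : ∀ (h : H) (x : V), h • x = f h • x) : Disc H V where
  disc x := by
    obtain ⟨i, hi⟩ := Disc.disc (G := G) x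
    obtain ⟨j, hj⟩ := hf i
    exact ⟨j, fun n hn => by rw [hV, hi _ (hj n hn)]⟩

variable {I : Type} [AddCommGroup I] (O : Type) [Ring O] [Module O I]

/-- restriction of functions -/
def LC.res {f : H →* G} (hf : IsCont f) : LC G I →ₗ[O] LC H I where
  toFun F := LC.mk (fun h => F (f h)) (by
    obtain ⟨i, hi⟩ := F.inv
    obtain ⟨j, hj⟩ := hf i
    exact ⟨j, fun h n hn => by simp only [map_mul, hi _ _ (hj n hn)]⟩)
  map_add' _ _ := rfl
  map_smul' _ _ := rfl

@[simp] theorem LC.res_apply {f : H →* G} (hf : IsCont f) (F : LC G I) (h : H) :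
    LC.res O hf F h = F (f h) := rfl

open Classical in
/-- extension by zero -/
noncomputable def LC.ext0 {f : H →* G} (hf : OpenEmb f) : LC H I →ₗ[O] LC G I where
  toFun F := LC.mk (fun g => if h : ∃ a, f a = g then F h.choose else 0) (by
    obtain ⟨j, hj⟩ := F.inv
    obtain ⟨i, hi⟩ := hf.opn j
    refine ⟨i, fun g n hn => ?_⟩
    obtain ⟨m, hm, rfl⟩ := hi n hn
    by_cases h : ∃ a, f a = g
    · have h' : ∃ a, f a = g * f m := ⟨h.choose * m, by rw [map_mul, h.choose_spec]⟩
      have : h'.choose = h.choose * m :=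
        hf.inj (by rw [h'.choose_spec, map_mul, h.choose_spec])
      simp only [dif_pos h, dif_pos h', this, hj _ _ hm]
    · have h' : ¬ ∃ a, f a = g * f m := fun ⟨a, ha⟩ =>
        h ⟨a * m⁻¹, by rw [map_mul, ha, map_inv, mul_inv_cancel_right]⟩
      simp only [dif_neg h, dif_neg h'])
  map_add' F F' := LC.ext fun g => by
    simp only [LC.mk_apply, LC.add_apply]
    split_ifs <;> simp
  map_smul' c F := LC.ext fun g => by
    simp only [LC.mk_apply, LC.smul_apply, RingHom.id_apply]
    split_ifs <;> simp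

theorem LC.ext0_apply {f : H →* G} (hf : OpenEmb f) (F : LC H I) (a : H) :
    LC.ext0 O hf F (f a) = F a := by
  have h : ∃ b, f b = f a := ⟨a, rfl⟩
  have : h.choose = a := hf.inj h.choose_spec
  exact (dif_pos h).trans (by rw [this])

theorem LC.ext0_apply_of_not {f : H →* G} (hf : OpenEmb f) (F : LC H I) {g : G}
    (hg : ¬ ∃ a, f a = g) : LC.ext0 O hf F g = 0 := by
  exact dif_neg hg

theorem LC.res_ext0 {f : H →* G} (hf : OpenEmb f) (F : LC H I) :
    LC.res O hf.cont (LC.ext0 O hf F) = F := LC.ext fun a => LC.ext0_apply O hf F a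

end Cont

namespace Meas

variable {H G O I : Type} [Group H] [ProG H] [Group G] [ProG G] [CommRing O] [AddCommGroup I]
  [Module O I] [MulSemiringAction G O] [DistribMulAction G I] [SMulDistribClass G O I] [Disc G I]
  [MulSemiringAction H O] [DistribMulAction H I] [SMulDistribClass H O I] [Disc H I]
  {f : H →* G}

section Map

variable (hf : IsCont f) (hI : ∀ (h : H) (x : I), h • x = f h • x)

include hI in
theorem res_orb {V : Type} [AddCommGroup V] [Module O V] [DistribMulAction G V]
    [SMulDistribClass G O V] [Disc G V] [DistribMulAction H V] [SMulDistribClass H O V] [Disc H V]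
    (hV : ∀ (h : H) (x : V), h • x = f h • x) (φ : V →ₗ[O] I) (x : V) :
    LC.res O hf (orb G φ x) = orb H φ x :=
  LC.ext fun a => by simp [hI, hV]

include hI in
theorem res_smul (a : H) (F : LC G I) : LC.res O hf (f a • F) = a • LC.res O hf F :=
  LC.ext fun b => by simp [hI]

/-- the push forward of measures -/
def map : Meas H O I →+* Meas G O I where
  toFun μ := lin.symm ((lin μ).comp (LC.res O hf))
  map_one' := ext fun F => by simp
  map_mul' μ ν := ext fun F => by
    change μ (orb H (lin ν) (LC.res O hf F)) =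
      μ (LC.res O hf (orb G ((lin ν).comp (LC.res O hf)) F))
    congr 1
    refine LC.ext fun a => ?_
    simp only [orb_apply, LC.res_apply, LinearMap.comp_apply, lin_apply, hI]
    rw [← map_inv, res_smul hf hI]
  map_zero' := rfl
  map_add' _ _ := rfl

theorem map_apply (μ : Meas H O I) (F : LC G I) : map hf hI μ F = μ (LC.res O hf F) := rfl

@[simp] theorem map_ofG (a : H) : map hf hI (ofG O I a) = ofG O I (f a) := rfl

@[simp] theorem map_ofO (c : O) : map hf hI (ofO H I c) = ofO G I c :=
  ext fun F => by simp [map_apply]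

theorem map_smul_dual {V : Type} [AddCommGroup V] [Module O V] [DistribMulAction G V]
    [SMulDistribClass G O V] [Disc G V] [DistribMulAction H V] [SMulDistribClass H O V] [Disc H V]
    (hV : ∀ (h : H) (x : V), h • x = f h • x) (μ : Meas H O I) (φ : V →ₗ[O] I) :
    map hf hI μ • φ = μ • φ :=
  LinearMap.ext fun x => by rw [smul_apply, map_apply, res_orb hf hI hV, smul_apply]

end Map

section Tr

variable (hf : OpenEmb f) (hI : ∀ (h : H) (x : I), h • x = f h • x)

/-- the trace: restriction of measures to the open subgroup -/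
noncomputable def tr : Meas G O I →+ Meas H O I where
  toFun μ := lin.symm ((lin μ).comp (LC.ext0 O hf))
  map_zero' := rfl
  map_add' _ _ := rfl

theorem tr_apply (μ : Meas G O I) (F : LC H I) : tr hf μ F = μ (LC.ext0 O hf F) := rfl

theorem tr_map (a : Meas H O I) : tr hf (map hf.cont hI a) = a :=
  ext fun F => by rw [tr_apply, map_apply, LC.res_ext0]

theorem map_injective : Function.Injective (map (O := O) hf.cont hI) :=
  Function.LeftInverse.injective (tr_map hf hI)

include hI in
theorem smul_ext0 (a : H) (F : LC H I) : f a • LC.ext0 O hf F = LC.ext0 O hf (a • F) := by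
  refine LC.ext fun g => ?_
  by_cases h : ∃ b, f b = g
  · obtain ⟨b, rfl⟩ := h
    rw [LC.gsmul_apply, ← map_inv, ← map_mul, LC.ext0_apply, LC.ext0_apply, LC.gsmul_apply, hI]
  · rw [LC.gsmul_apply, LC.ext0_apply_of_not O hf _ h, LC.ext0_apply_of_not, smul_zero]
    rintro ⟨b, hb⟩
    exact h ⟨a * b, by rw [map_mul, hb, mul_inv_cancel_left]⟩

theorem tr_map_mul (a : Meas H O I) (μ : Meas G O I) :
    tr hf (map hf.cont hI a * μ) = a * tr hf μ := ext fun F => by
  rw [tr_apply, mul_apply, map_apply, mul_apply]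
  congr 1
  refine LC.ext fun b => ?_
  simp only [LC.res_apply, orb_apply, lin_apply, tr_apply, hI]
  rw [← map_inv, smul_ext0 hf hI]

theorem tr_mul_map (μ : Meas G O I) (a : Meas H O I) :
    tr hf (μ * map hf.cont hI a) = tr hf μ * a := ext fun F => by
  rw [tr_apply, mul_apply, mul_apply, tr_apply]
  congr 1
  refine LC.ext fun g => ?_
  by_cases h : ∃ b, f b = g
  · obtain ⟨b, rfl⟩ := h
    rw [LC.ext0_apply, orb_apply, orb_apply, lin_apply, lin_apply, map_apply, ← map_inv,
      smul_ext0 hf hI, LC.res_ext0, hI]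
  · rw [LC.ext0_apply_of_not O hf _ h, orb_apply, lin_apply, map_apply]
    have : LC.res O hf.cont (g⁻¹ • LC.ext0 O hf F) = 0 := LC.ext fun b => by
      rw [LC.res_apply, LC.gsmul_apply, LC.ext0_apply_of_not, smul_zero, LC.zero_apply]
      rintro ⟨c, hc⟩
      exact h ⟨c * b⁻¹, by rw [map_mul, hc, map_inv, inv_inv, mul_inv_cancel_right]⟩
    rw [this, map_zero, smul_zero]

theorem tr_ofG (a : H) : tr hf (ofG O I (f a)) = ofG O I a :=
  ext fun F => by rw [tr_apply, ofG_apply, LC.ext0_apply, ofG_apply]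

theorem tr_one : tr hf (1 : Meas G O I) = 1 := by
  have := tr_ofG (O := O) (I := I) hf 1
  simpa only [map_one] using this

theorem tr_ofG_of_not {g : G} (hg : ¬ ∃ a, f a = g) : tr hf (ofG O I g) = 0 :=
  ext fun F => by rw [tr_apply, ofG_apply, LC.ext0_apply_of_not O hf _ hg, zero_apply]

/-- the trace vanishes on the other cosets -/
theorem tr_ofG_mul_map_mul_ofG (g g' : G) (hg : ∀ a b, g * f a * g' ≠ f b) (r : Meas H O I) :
    tr hf (ofG O I g * map hf.cont hI r * ofG O I g') = 0 := ext fun F => by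
  rw [tr_apply, mul_ofG_apply g' _ _ (LC.mk (fun a => LC.ext0 O hf F (a * g')) ?_) fun _ => rfl,
    ofG_mul_apply, map_apply]
  · have : ∀ F' : LC G I, (∀ a, F' (g * f a) = 0) → LC.res O hf.cont (g⁻¹ • F') = 0 :=
      fun F' h => LC.ext fun a => by simp [h]
    rw [this, map_zero, smul_zero, zero_apply]
    intro a
    exact LC.ext0_apply_of_not O hf _ fun ⟨b, hb⟩ => hg a b hb.symm
  · obtain ⟨i, hi⟩ := (LC.ext0 O hf F).inv
    refine ⟨i, fun a n hn => ?_⟩
    have : a * n * g' = a * g' * (g'⁻¹ * n * g'⁻¹⁻¹) := by group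
    simp only [this, hi _ _ ((normal i).conj_mem _ hn _)]

variable {ι : Type} [Fintype ι] (δ : ι → G)

/-- decomposition along representatives of the right cosets -/
theorem eq_sum_right (hδ : ∀ g, ∃! d, ∃ a, f a * δ d = g) (μ : Meas G O I) :
    μ = ∑ d, map hf.cont hI (tr hf (μ * ofG O I (δ d)⁻¹)) * ofG O I (δ d) := by
  have hinv : ∀ (F : LC G I) (g' : G),
      ∃ i, ∀ a, ∀ n ∈ N (G := G) i, F (a * n * g') = F (a * g') := fun F g' => by
    obtain ⟨i, hi⟩ := F.inv
    refine ⟨i, fun a n hn => ?_⟩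
    have : a * n * g' = a * g' * (g'⁻¹ * n * g'⁻¹⁻¹) := by group
    simp only [this, hi _ _ ((normal i).conj_mem _ hn _)]
  refine ext fun F => ?_
  rw [sum_apply]
  have : ∀ d, (map hf.cont hI (tr hf (μ * ofG O I (δ d)⁻¹)) * ofG O I (δ d)) F =
      μ (LC.mk (fun a => LC.ext0 O hf (LC.res O hf.cont
        (LC.mk (fun a => F (a * δ d)) (hinv F _))) (a * (δ d)⁻¹)) (hinv _ _)) := fun d => by
    rw [mul_ofG_apply (δ d) _ _ (LC.mk (fun a => F (a * δ d)) (hinv F _)) fun _ => rfl, map_apply,
      tr_apply, mul_ofG_apply (δ d)⁻¹ _ _ (LC.mk _ (hinv _ _)) fun _ => rfl]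
    rfl
  simp only [this]
  rw [← map_sum]
  congr 1
  refine LC.ext fun g => ?_
  obtain ⟨d, ⟨a, ha⟩, hd⟩ := hδ g
  rw [LC.sum_apply, Finset.sum_eq_single d]
  · rw [LC.mk_apply, ← ha, mul_inv_cancel_right, LC.ext0_apply]
    rfl
  · intro d' _ hne
    refine LC.ext0_apply_of_not O hf _ ?_
    rintro ⟨b, hb⟩
    exact hne (hd d' ⟨b, by rw [hb, inv_mul_cancel_right]⟩)
  · simp

/-- decomposition along representatives of the left cosets -/
theorem eq_sum_left (hδ : ∀ g, ∃! d, ∃ a, δ d * f a = g) (μ : Meas G O I) :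
    μ = ∑ d, ofG O I (δ d) * map hf.cont hI (tr hf (ofG O I (δ d)⁻¹ * μ)) := by
  refine ext fun F => ?_
  rw [sum_apply]
  have : ∀ d, (ofG O I (δ d) * map hf.cont hI (tr hf (ofG O I (δ d)⁻¹ * μ))) F =
      μ (δ d • LC.ext0 O hf (LC.res O hf.cont ((δ d)⁻¹ • F))) := fun d => by
    rw [ofG_mul_apply, map_apply, tr_apply, ofG_mul_apply, smul_inv_smul, inv_inv]
  simp only [this]
  rw [← map_sum]
  congr 1
  refine LC.ext fun g => ?_
  obtain ⟨d, ⟨a, ha⟩, hd⟩ := hδ g
  rw [LC.sum_apply, Finset.sum_eq_single d]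
  · rw [LC.gsmul_apply, ← ha, inv_mul_cancel_left, LC.ext0_apply]
    simp
  · intro d' _ hne
    rw [LC.gsmul_apply, LC.ext0_apply_of_not, smul_zero]
    rintro ⟨b, hb⟩
    exact hne (hd d' ⟨b, by rw [hb, mul_inv_cancel_left]⟩)
  · simp

end Tr

end Meas

end Vale.Agent.P221X
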