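import Vale.Agent.P221X.Meas.KO

/-!
# P221, measure rings: twists, the algebra structure, finite levels
-/

set_option linter.all false

noncomputable section

namespace Vale.Agent.P221X

open PowerSeries KK ProG

section Tw

/-- compatible automorphisms of the group, the ring and the module -/
structure MTw (G O I : Type) [Group G] [ProG G] [CommRing O] [AddCommGroup I] [Module O I]
    [DistribMulAction G I] where
  σ : G ≃* G
  ρO : O ≃+* O
  ρ : I ≃+ I
  ρ_smul : ∀ (f : O) x, ρ (f • x) = ρO f • ρ x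
  ρ_g : ∀ (g : G) x, ρ (g • x) = σ g • ρ x
  mem : ∀ i a, σ a ∈ N (G := G) i ↔ a ∈ N (G := G) i

namespace MTw

variable {G O I : Type} [Group G] [ProG G] [CommRing O] [AddCommGroup I] [Module O I]
  [DistribMulAction G I] (T : MTw G O I)

/-- the inverse -/
def symm : MTw G O I where
  σ := T.σ.symm
  ρO := T.ρO.symm
  ρ := T.ρ.symm
  ρ_smul f x := T.ρ.injective (by simp [T.ρ_smul])
  ρ_g g x := T.ρ.injective (by simp [T.ρ_g])
  mem i a := by rw [← T.mem, MulEquiv.apply_symm_apply]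

/-- the pull back of functions -/
def pull : LC G I →+ LC G I where
  toFun φ := LC.mk (fun g => T.ρ.symm (φ (T.σ g)))
    (φ.inv.imp fun i h g n hn => by simp only [map_mul, h _ _ ((T.mem i n).2 hn)])
  map_zero' := LC.ext fun g => by simp
  map_add' _ _ := LC.ext fun g => by simp

@[simp] theorem pull_apply (φ : LC G I) (g : G) : T.pull φ g = T.ρ.symm (φ (T.σ g)) := rfl

theorem pull_smul (f : O) (φ : LC G I) : T.pull (f • φ) = T.ρO.symm f • T.pull φ :=
  LC.ext fun g => T.symm.ρ_smul f _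

theorem pull_gsmul (g : G) (φ : LC G I) : T.pull (T.σ g • φ) = g • T.pull φ :=
  LC.ext fun a => T.ρ.injective (by simp [T.ρ_g])

theorem pull_symm (φ : LC G I) : T.pull (T.symm.pull φ) = φ :=
  LC.ext fun a => by simp [symm]

theorem symm_pull (φ : LC G I) : T.symm.pull (T.pull φ) = φ :=
  LC.ext fun a => by simp [symm]

/-- the twist of a measure -/
def tw0 (μ : Meas G O I) : Meas G O I := Meas.lin.symm
  { toFun φ := T.ρ (μ (T.pull φ))
    map_add' _ _ := by simp
    map_smul' f φ := by simp [pull_smul, T.ρ_smul] }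

variable [MulSemiringAction G O] [SMulDistribClass G O I] [Disc G I]

/-- the twist as an automorphism of the ring of measures -/
def tw : Meas G O I ≃+* Meas G O I where
  toFun := T.tw0
  invFun := T.symm.tw0
  left_inv μ := Meas.ext fun φ => by
    change T.ρ.symm (T.ρ (μ (T.pull (T.symm.pull φ)))) = _
    rw [pull_symm, AddEquiv.symm_apply_apply]
  right_inv μ := Meas.ext fun φ => by
    change T.ρ (T.ρ.symm (μ (T.symm.pull (T.pull φ)))) = _
    rw [symm_pull, AddEquiv.apply_symm_apply]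
  map_mul' μ ν := Meas.ext fun φ => by
    change T.ρ (μ _) = T.ρ (μ _)
    refine congrArg (fun ψ => T.ρ (μ ψ)) (LC.ext fun g => T.ρ.injective ?_)
    change T.ρ (g • ν (g⁻¹ • T.pull φ)) = T.ρ (T.ρ.symm (T.σ g • T.ρ (ν (T.pull ((T.σ g)⁻¹ • φ)))))
    rw [← map_inv, pull_gsmul, AddEquiv.apply_symm_apply, T.ρ_g]
  map_add' μ ν := Meas.ext fun φ => T.ρ.map_add _ _

theorem tw_apply (μ : Meas G O I) (φ : LC G I) : T.tw μ φ = T.ρ (μ (T.pull φ)) := rfl

theorem tw_ofO (f : O) : T.tw (Meas.ofO G I f) = Meas.ofO G I (T.ρO f) :=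
  Meas.ext fun φ => by simp [tw_apply, T.ρ_smul]

theorem tw_ofG (g : G) : T.tw (Meas.ofG O I g) = Meas.ofG O I (T.σ g) :=
  Meas.ext fun φ => by simp [tw_apply]

end MTw

end Tw

namespace Meas

section Alg

variable {F G O I : Type} [CommRing F] [Group G] [ProG G] [CommRing O] [AddCommGroup I]
  [Module O I] [MulSemiringAction G O] [DistribMulAction G I] [SMulDistribClass G O I] [Disc G I]
  [Algebra F O] [SMulCommClass G F O]

theorem ofO_comm {f : O} (h : ∀ g : G, g • f = f) (μ : Meas G O I) :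
    ofO G I f * μ = μ * ofO G I f := ext fun φ => by
  rw [ofO_mul_apply, mul_ofO_apply f μ φ (f • φ) fun a => by rw [h, LC.smul_apply], map_smul]

instance : Algebra F (Meas G O I) :=
  ((ofO G I).comp (algebraMap F O)).toAlgebra' fun c μ => ofO_comm (fun g => smul_algebraMap g c) μ

theorem algebraMap_eq (c : F) : algebraMap F (Meas G O I) c = ofO G I (algebraMap F O c) := rfl

theorem fsmul_apply (c : F) (μ : Meas G O I) (φ : LC G I) :
    (c • μ) φ = algebraMap F O c • μ φ := by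
  rw [Algebra.smul_def, algebraMap_eq, ofO_mul_apply]

end Alg

end Meas

variable {F : Type} [Field F] {G : Type} [Group G] [ProG G]

open Classical in
/-- the function with the value `x` on the coset `c` -/
def LC.ind {I : Type} [AddCommGroup I] {O : Type} [Ring O] [Module O I] (l : ℕ)
    (c : G ⧸ N (G := G) l) : I →ₗ[O] LC G I where
  toFun x := LC.mk (fun g => if (g : G ⧸ N (G := G) l) = c then x else 0)
    ⟨l, fun g n hn => by simp only [QuotientGroup.mk_mul_of_mem g hn]⟩
  map_add' x y := LC.ext fun g => by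
    simp only [LC.mk_apply, LC.add_apply]
    split_ifs <;> simp
  map_smul' f x := LC.ext fun g => by
    simp only [LC.mk_apply, LC.smul_apply, RingHom.id_apply]
    split_ifs <;> simp

open Classical in
theorem LC.ind_apply {I : Type} [AddCommGroup I] {O : Type} [Ring O] [Module O I] (l : ℕ)
    (c : G ⧸ N (G := G) l) (x : I) (g : G) :
    LC.ind (O := O) l c x g = if (g : G ⧸ N (G := G) l) = c then x else 0 := rfl

/-- the functions of the level `(l, n)` -/
structure LC.Lev (l n : ℕ) (φ : LC G (KO F)) : Prop where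
  inv : ∀ g, ∀ m ∈ N (G := G) l, φ (g * m) = φ g
  tor : ∀ g, (X ^ n : PowerSeries F) • φ g = 0

namespace LC

variable {l l' n n' : ℕ} {φ ψ : LC G (KO F)}

theorem Lev.mono (h : Lev l n φ) (h1 : l ≤ l') (h2 : n ≤ n') : Lev l' n' φ :=
  ⟨fun g m hm => h.inv g m (anti h1 hm), fun g => KO.tors_mono h2 (h.tor g)⟩

theorem exists_lev (φ : LC G (KO F)) : ∃ n, Lev n n φ := by
  obtain ⟨l, hl⟩ := φ.inv
  choose t ht using KO.exists_tors (F := F)
  obtain ⟨m, hm⟩ := (φ.finite_range.image t).bddAbove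
  exact ⟨max l m, Lev.mono ⟨hl, fun g => KO.tors_mono (hm ⟨_, ⟨g, rfl⟩, rfl⟩) (ht _)⟩
    (le_max_left _ _) (le_max_right _ _)⟩

theorem lev_ind (c : G ⧸ N (G := G) l) {x : KO F} (h : (X ^ n : PowerSeries F) • x = 0) :
    Lev l n (ind (O := PowerSeries F) l c x) :=
  ⟨fun g m hm => by rw [ind_apply, ind_apply, QuotientGroup.mk_mul_of_mem g hm], fun g => by
    rw [ind_apply]; split_ifs; exacts [h, smul_zero _]⟩

theorem eq_sum_ind [Fintype (G ⧸ N (G := G) l)] (h : ∀ g, ∀ m ∈ N (G := G) l, φ (g * m) = φ g) :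
    φ = ∑ c, ind (O := PowerSeries F) l c (φ c.out) := ext fun g => by
  classical
  obtain ⟨m, hm⟩ := QuotientGroup.mk_out_eq_mul (N (G := G) l) g
  simp only [sum_apply, ind_apply, Finset.sum_ite_eq, Finset.mem_univ, if_true, hm, h g m m.2]

end LC

namespace Meas

open LC

variable {l n : ℕ} {μ ν : Meas G (PowerSeries F) (KO F)}

/-- the coordinates of a measure -/
def lv0 (l i : ℕ) (c : G ⧸ N (G := G) l) (μ : Meas G (PowerSeries F) (KO F)) : F :=
  KO.res (μ (ind (O := PowerSeries F) l c (KO.mk (uz (-(i + 1 : ℕ) : ℤ)))))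

/-- the measure vanishes on the level `(l, n)` -/
def Kill (l n : ℕ) (μ : Meas G (PowerSeries F) (KO F)) : Prop := ∀ φ, Lev l n φ → μ φ = 0

theorem kill_iff : Kill l n μ ↔ ∀ i < n, ∀ c, lv0 l i c μ = 0 := by
  refine ⟨fun h i hi c => ?_, fun h φ hφ => ?_⟩
  · rw [lv0, h _ (lev_ind c (KO.X_pow_smul_eq_zero.2 (ge_mono (by omega) (uz_mem_ge _)))),
      map_zero]
  have : Finite (G ⧸ N (G := G) l) := Subgroup.finite_quotient_of_finiteIndex
  have := Fintype.ofFinite (G ⧸ N (G := G) l)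
  rw [eq_sum_ind hφ.inv, map_sum]
  refine Finset.sum_eq_zero fun c _ => ?_
  obtain ⟨f, hf⟩ := KO.exists_smul (hφ.tor c.out)
  rw [hf, map_smul, map_smul, KO.eq_zero_of_res (x := μ _) fun j => ?_, smul_zero]
  rw [← map_smul, ← map_smul, KO.X_pow_smul_mk, ← uz_add]
  rcases lt_or_ge j n with q | q
  · have := h (n - j - 1) (by omega) c
    rwa [lv0, show (-(n - j - 1 + 1 : ℕ) : ℤ) = j + -n by omega] at this
  · rw [KO.mk_eq_zero.2 (ge_mono (by omega) (uz_mem_ge _)), map_zero, map_zero, map_zero]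

theorem Kill.mono {l' n' : ℕ} (h : Kill l n μ) (h1 : l' ≤ l) (h2 : n' ≤ n) : Kill l' n' μ :=
  fun φ hφ => h φ (hφ.mono h1 h2)

theorem eq_zero_of_kill (h : ∀ n, Kill n n μ) : μ = 0 :=
  ext fun φ => (exists_lev φ).elim fun n hn => h n φ hn

theorem exists_lim (s : ℕ → Meas G (PowerSeries F) (KO F))
    (h : ∀ n, Kill n n (s (n + 1) - s n)) : ∃ y, ∀ n, Kill n n (y - s n) := by
  have k : ∀ {n m φ}, Lev n n φ → n ≤ m → s m φ = s n φ := fun {n m φ} hφ e => by
    induction m, e using Nat.le_induction with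
    | base => rfl
    | succ m e ih => rw [← ih, ← sub_eq_zero]; exact h m φ (hφ.mono e e)
  choose t ht using exists_lev (F := F) (G := G)
  have k' : ∀ {φ m}, t φ ≤ m → s (t φ) φ = s m φ := fun {φ m} e => (k (ht φ) e).symm
  refine ⟨lin.symm ⟨⟨fun φ => s (t φ) φ, fun φ ψ => ?_⟩, fun f φ => ?_⟩, fun n φ hφ => ?_⟩
  · rw [k' (m := t (φ + ψ) + t φ + t ψ) (by omega), k' (m := t (φ + ψ) + t φ + t ψ) (by omega),
      k' (φ := ψ) (m := t (φ + ψ) + t φ + t ψ) (by omega), map_add]
  · simp only [RingHom.id_apply]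
    rw [k' (m := t (f • φ) + t φ) (by omega), k' (φ := φ) (m := t (f • φ) + t φ) (by omega),
      map_smul]
  · change s (t φ) φ - s n φ = 0
    rw [k' (m := t φ + n) (by omega), k hφ (by omega), sub_self]

variable [MulSemiringAction G (PowerSeries F)] [MulSemiringAction G (KK F)] [ActK G F]

theorem _root_.Vale.Agent.P221X.LC.Lev.gsmul {φ : LC G (KO F)} (h : Lev l n φ) (g : G) :
    Lev l n (g • φ) :=
  ⟨fun a m hm => by simp only [gsmul_apply, ← mul_assoc, h.inv _ m hm],
    fun a => KO.tors_gsmul g (h.tor _)⟩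

theorem Kill.left (h : Kill l n μ) (ν : Meas G (PowerSeries F) (KO F)) : Kill l n (ν * μ) :=
  fun φ hφ => by
    rw [mul_apply, show orb G (lin μ) φ = 0 from LC.ext fun g => by
      rw [orb_apply, lin_apply, h _ (hφ.gsmul _), smul_zero, LC.zero_apply], map_zero]

theorem Kill.right (h : Kill l n μ) (ν : Meas G (PowerSeries F) (KO F))
    (e : ∀ a ∈ N (G := G) l, ∀ x : KO F, (X ^ n : PowerSeries F) • x = 0 → a • x = x) :
    Kill l n (μ * ν) := fun φ hφ => by
  have t : ∀ ψ, Lev l n ψ → (X ^ n : PowerSeries F) • ν ψ = 0 := fun ψ hψ => by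
    rw [← map_smul, show (X ^ n : PowerSeries F) • ψ = 0 from LC.ext hψ.tor, map_zero]
  refine h _ ⟨fun g m hm => ?_, fun g => KO.tors_gsmul g (t _ (hφ.gsmul _))⟩
  have h1 := hφ.gsmul g⁻¹
  have h2 : m⁻¹ • g⁻¹ • φ = g⁻¹ • φ := LC.ext fun a => by
    rw [gsmul_apply, e _ (inv_mem hm) _ (h1.tor _), inv_inv,
      show m * a = a * (a⁻¹ * m * a⁻¹⁻¹) by group, h1.inv _ _ ((normal l).conj_mem _ hm _)]
  rw [orb_apply, orb_apply, mul_inv_rev, mul_smul, mul_smul, h2, lin_apply, e m hm _ (t _ h1)]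

open Classical in
theorem lv0_gen (i : ℕ) (c : G ⧸ N (G := G) l) (f : PowerSeries F) (a : G) :
    lv0 l i c (ofO G (KO F) f * ofG _ _ a) =
      if (a : G ⧸ N (G := G) l) = c then coeff i f else 0 := by
  rw [lv0, ofO_mul_apply, ofG_apply, ind_apply]
  split_ifs
  · rw [KO.smul_mk, KO.res_mk, mul_comm, KO.cf_uz_mul', ← cf_algebraMap]
    congr 2
    omega
  · simp

theorem actK_cont (z : KK F) (k : ℤ) :
    ∃ n, ∀ μ : Meas G (PowerSeries F) (KO F), Kill n n μ → actK μ z ∈ ge k :=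
  (exists_lev (KO.orbK G z (uz (-k)))).imp fun n h μ hμ => actK_mem_ge.2 (hμ _ h)

end Meas

end Vale.Agent.P221X
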